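import Vale.Agent.P006.V1.NCFinal

/-!
P006, block V1: the first dispersion sum, all parts together.
-/

namespace Vale.Agent.P006.V1

open scoped BigOperators Classical
open Vale.Agent.P006
open Vale.Agent.P006.DISP (NonCube csumI ncTerm NCf Adm)

theorem S1_exact {V : ℝ → ℂ} (hV : PO.Wt V) {B : ℝ} (hB : 0 < B) (W : O) (α : O → ℂ) (A : ℝ)
    (κI : ℂ) :
    S1 V B W (supp α A) α - ∑ a ∈ supp α A, ((‖α a‖ ^ 2 : ℝ) : ℂ) * diagTerm V B W a -
      ∑ a1 ∈ supp α A, ∑ a2 ∈ supp α A, α a1 * (starRingEnd ℂ) (α a2) * mainPair κI B W a1 a2 -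
      NCtot V B W α A =
    ∑ a1 ∈ supp α A, ∑ a2 ∈ supp α A, α a1 * (starRingEnd ℂ) (α a2) *
      (pairSum V B W a1 a2 - (if a1 = a2 then diagTerm V B W a1 else 0) -
        mainPair κI B W a1 a2 - ncPair V B W a1 a2) := by
  have hd : ∑ a ∈ supp α A, ((‖α a‖ ^ 2 : ℝ) : ℂ) * diagTerm V B W a =
      ∑ a1 ∈ supp α A, ∑ a2 ∈ supp α A, α a1 * (starRingEnd ℂ) (α a2) *
        (if a1 = a2 then diagTerm V B W a1 else 0) := by
    refine Finset.sum_congr rfl fun a1 h1 => ?_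
    rw [Finset.sum_eq_single a1]
    · rw [if_pos rfl, Complex.mul_conj, Complex.normSq_eq_norm_sq]
    · intro a2 _ hne
      rw [if_neg hne.symm, mul_zero]
    · intro h; exact absurd h1 h
  rw [S1_expand hV hB, hd, NCtot, ← Finset.sum_sub_distrib, ← Finset.sum_sub_distrib,
    ← Finset.sum_sub_distrib]
  refine Finset.sum_congr rfl fun a1 _ => ?_
  rw [← Finset.sum_sub_distrib, ← Finset.sum_sub_distrib, ← Finset.sum_sub_distrib]
  refine Finset.sum_congr rfl fun a2 _ => ?_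
  ring

/-- **Theorem V1.** -/
theorem S1_bound {V : ℝ → ℂ} (hV : PO.Wt V) {κI : ℂ} {E : ℝ} (hE : 0 ≤ E)
    (hK : CubeKernel V κI E) {H1 H2 : ℝ → ℂ} {C : ℝ}
    (hH1 : SepK V (1 / 6) H1 C) (hH2 : SepK V 2 H2 C)
    {W : O} (hW : Primary W) (sW : Squarefree W) {A B : ℝ} (hA : 0 < A) (hB : 0 < B)
    {α : O → ℂ} (hα : Adm W A α) :
    ‖S1 V B W (supp α A) α - ∑ a ∈ supp α A, ((‖α a‖ ^ 2 : ℝ) : ℂ) * diagTerm V B W a -
      ∑ a1 ∈ supp α A, ∑ a2 ∈ supp α A, α a1 * (starRingEnd ℂ) (α a2) * mainPair κI B W a1 a2‖ ≤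
    (∑ a1 ∈ supp α A, ∑ a2 ∈ supp α A, ‖α a1‖ * ‖α a2‖ * errPair E B a1 a2) +
      100 * (N W : ℝ) ^ 6 * C * NCf α A B := by
  have h1 := S1_exact hV hB W α A κI
  have h2 := nc_bound hV hH1 hH2 hW hA hB hα
  have hP := pairData_supp hα
  have h3 : ‖∑ a1 ∈ supp α A, ∑ a2 ∈ supp α A, α a1 * (starRingEnd ℂ) (α a2) *
      (pairSum V B W a1 a2 - (if a1 = a2 then diagTerm V B W a1 else 0) -
        mainPair κI B W a1 a2 - ncPair V B W a1 a2)‖ ≤
      ∑ a1 ∈ supp α A, ∑ a2 ∈ supp α A, ‖α a1‖ * ‖α a2‖ * errPair E B a1 a2 := by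
    refine (norm_sum_le _ _).trans (Finset.sum_le_sum fun a1 ha1 => ?_)
    refine (norm_sum_le _ _).trans (Finset.sum_le_sum fun a2 ha2 => ?_)
    rw [norm_mul, norm_mul, RCLike.norm_conj]
    exact mul_le_mul_of_nonneg_left (pair_main hV hE hK hB hW sW (hP a1 ha1 a2 ha2))
      (by positivity)
  have h4 : S1 V B W (supp α A) α - ∑ a ∈ supp α A, ((‖α a‖ ^ 2 : ℝ) : ℂ) * diagTerm V B W a -
      ∑ a1 ∈ supp α A, ∑ a2 ∈ supp α A, α a1 * (starRingEnd ℂ) (α a2) * mainPair κI B W a1 a2 =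
      (∑ a1 ∈ supp α A, ∑ a2 ∈ supp α A, α a1 * (starRingEnd ℂ) (α a2) *
      (pairSum V B W a1 a2 - (if a1 = a2 then diagTerm V B W a1 else 0) -
        mainPair κI B W a1 a2 - ncPair V B W a1 a2)) + NCtot V B W α A := by
    rw [← h1]; ring
  rw [h4]
  exact (norm_add_le _ _).trans (add_le_add h3 h2)

end Vale.Agent.P006.V1
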