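import Vale.Agent.P006.V1.Inst

/-!
P006, block V1: the separation-of-variables hypothesis for the kernel `V°`.
-/

namespace Vale.Agent.P006.V1

open MeasureTheory

/-- `V°(y) = ∫ H(t) y^{-(σ+it)} dt` for `y > 0`, with `|H(t)| ≤ C/(1+t²)` -/
structure SepK (V : ℝ → ℂ) (σ : ℝ) (H : ℝ → ℂ) (C : ℝ) : Prop where
  cont : Continuous H
  bound : ∀ t : ℝ, ‖H t‖ ≤ C / (1 + t ^ 2)
  sep : ∀ y : ℝ, 0 < y → PO.Vo V y = ∫ t : ℝ, H t * (y : ℂ) ^ (-((σ : ℂ) + t * Complex.I))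

/-- existence of the separation for every admissible weight -/
theorem exists_sepK {V : ℝ → ℂ} (hV : PO.Wt V) {σ : ℝ} (hσ : 0 < σ) :
    ∃ (H : ℝ → ℂ) (C : ℝ), 0 ≤ C ∧ SepK V σ H C := by
  obtain ⟨H, C, hC, h1, h2, h3⟩ := mellin_sep (WT hV.radS) hσ
  refine ⟨H, C, hC, h1, h2, fun y hy => ?_⟩
  rw [← h3 y hy, ← Vo_radS hV, Vo]

end Vale.Agent.P006.V1
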