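import Vale.Agent.P006.V1.CubePart

/-!
P006, block V1: Moebius inversion in the cube part.
-/

namespace Vale.Agent.P006.V1

open scoped BigOperators Classical
open Vale.Agent.P006

/-- the sum over all `m ≠ 0` -/
noncomputable def C0 (V : ℝ → ℂ) (T : ℝ) : ℂ :=
  ∑' m : O, if m = 0 then 0 else PO.Vo V (T * (N m : ℝ) ^ 3)

/-- the kernel estimate for sums over nonzero cubes: main term `κI T^{-1/3}`, error `E` -/
def CubeKernel (V : ℝ → ℂ) (κI : ℂ) (E : ℝ) : Prop :=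
  ∀ T : ℝ, 0 < T → ‖C0 V T - κI * (T ^ (-(1 / 3 : ℝ)) : ℝ)‖ ≤ E * min 1 (T ^ (-(1 / 3 : ℝ)))

theorem csum_eq {V : ℝ → ℂ} (hV : PO.Wt V) {T : ℝ} (hT : 0 < T) {r : O} (hr : Primary r)
    (sr : Squarefree r) :
    csum V T r = ∑ δ ∈ HB.D r, HB.mob δ * C0 V (T * (N δ : ℝ) ^ 3) := by
  have h1 : ∀ m : O, (if m = 0 then 0 else cop r m * PO.Vo V (T * (N m : ℝ) ^ 3)) =
      ∑ δ ∈ HB.D r, (if m = 0 then 0 else
        (if δ ∣ m then HB.mob δ else 0) * PO.Vo V (T * (N m : ℝ) ^ 3)) := by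
    intro m
    by_cases hm : m = 0
    · simp [hm]
    · simp only [if_neg hm]
      have h2 : ∑ δ ∈ HB.D r, (if δ ∣ m then HB.mob δ else 0) =
          if IsCoprime r m then 1 else 0 := by convert HB.sum_mob r hr sr m
      rw [← Finset.sum_mul, h2, cop]
      have : IsCoprime m r ↔ IsCoprime r m := isCoprime_comm
      simp only [this]
  rw [csum, tsum_congr h1, Summable.tsum_finsetSum]
  · refine Finset.sum_congr rfl fun δ hδ => ?_
    have hδ' := (HB.mem_D hr.ne_zero).1 hδ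
    have hδ0 : δ ≠ 0 := Primary.ne_zero hδ'.1
    have hinj : Function.Injective (fun m : O => δ * m) :=
      fun x y h => mul_left_cancel₀ hδ0 h
    have hsupp : Function.support (fun m : O => if m = 0 then 0 else
        (if δ ∣ m then HB.mob δ else 0) * PO.Vo V (T * (N m : ℝ) ^ 3)) ⊆
        Set.range (fun m : O => δ * m) := by
      intro m hm
      rw [Function.mem_support] at hm
      by_contra h2
      apply hm
      have : ¬ δ ∣ m := fun ⟨c, hc⟩ => h2 ⟨c, hc.symm⟩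
      simp [this]
    rw [← hinj.tsum_eq hsupp, C0, ← tsum_mul_left]
    refine tsum_congr fun m => ?_
    by_cases hm : m = 0
    · simp [hm]
    · rw [if_neg hm, if_neg (mul_ne_zero hδ0 hm), if_pos (dvd_mul_right δ m), N_mul]
      push_cast
      rw [show T * (N δ * N m : ℝ) ^ 3 = T * (N δ : ℝ) ^ 3 * (N m : ℝ) ^ 3 by ring]
  · intro δ _
    refine summable_cube_Vo hV hT (C' := 1) zero_le_one fun m => ?_
    split_ifs
    · rw [HB.norm_mob]
    · simp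

theorem sum_mob_inv {r : O} (hr : Primary r) (sr : Squarefree r) :
    ∑ δ ∈ HB.D r, HB.mob δ * ((N δ : ℂ))⁻¹ = (KU.phi r : ℂ) / N r := by
  refine HB.sf_induction (P := fun r => ∑ δ ∈ HB.D r, HB.mob δ * ((N δ : ℂ))⁻¹ =
    (KU.phi r : ℂ) / N r) ?_ ?_ r hr sr
  · rw [HB.D_one, KU.phi_of_isUnit isUnit_one]; simp [HB.mob_one]
  · intro p k hp hpp hk hsk hc ih
    have hk0 : k ≠ 0 := hk.ne_zero
    have h1 : ∀ d ∈ HB.D k, HB.mob (p * d) * ((N (p * d) : ℂ))⁻¹ =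
        (-(N p : ℂ)⁻¹) * (HB.mob d * ((N d : ℂ))⁻¹) := by
      intro d hd
      have hd' := (HB.mem_D hk0).1 hd
      rw [HB.mob_mul hpp hd'.1.ne_zero, N_mul]
      push_cast
      rw [mul_inv]; ring
    rw [HB.sum_D_mul hp hpp hk hc, Finset.sum_congr rfl h1, ← Finset.mul_sum, ih,
      KU.phi_prime_mul hpp hk0, if_neg, N_mul]
    · have hN : 1 ≤ N p := N_pos hpp.ne_zero
      have hNp : (N p : ℂ) ≠ 0 := by exact_mod_cast (N_pos hpp.ne_zero).ne'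
      have hNk : (N k : ℂ) ≠ 0 := by exact_mod_cast (N_pos hk0).ne'
      push_cast [Nat.cast_sub hN]
      field_simp
      ring
    · intro h
      exact hpp.not_isUnit (hc.isUnit_of_dvd' dvd_rfl h)

theorem csum_main {V : ℝ → ℂ} (hV : PO.Wt V) {κI : ℂ} {E : ℝ} (hE : 0 ≤ E)
    (hK : CubeKernel V κI E) {T : ℝ} (hT : 0 < T) {r : O} (hr : Primary r) (sr : Squarefree r) :
    ‖csum V T r - κI * (T ^ (-(1 / 3 : ℝ)) : ℝ) * ((KU.phi r : ℂ) / N r)‖ ≤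
      (HB.D r).card * (E * min 1 (T ^ (-(1 / 3 : ℝ)))) := by
  rw [csum_eq hV hT hr sr, ← sum_mob_inv hr sr, Finset.mul_sum, ← Finset.sum_sub_distrib]
  refine (norm_sum_le _ _).trans ?_
  rw [← nsmul_eq_mul]
  refine Finset.sum_le_card_nsmul _ _ _ fun δ hδ => ?_
  have hδ' := (HB.mem_D hr.ne_zero).1 hδ
  have hδ0 : δ ≠ 0 := Primary.ne_zero hδ'.1
  have hN := one_le_N hδ0
  have hN0 : (0 : ℝ) < N δ := by linarith
  have h1 : (T * (N δ : ℝ) ^ 3) ^ (-(1 / 3 : ℝ)) = T ^ (-(1 / 3 : ℝ)) * (N δ : ℝ)⁻¹ := by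
    rw [Real.mul_rpow hT.le (by positivity)]
    congr 1
    rw [← Real.rpow_natCast, ← Real.rpow_mul hN0.le]
    norm_num
    rw [Real.rpow_neg_one]
  have h2 := hK (T * (N δ : ℝ) ^ 3) (by positivity)
  have h3 : HB.mob δ * C0 V (T * (N δ : ℝ) ^ 3) -
      κI * (T ^ (-(1 / 3 : ℝ)) : ℝ) * (HB.mob δ * ((N δ : ℂ))⁻¹) =
      HB.mob δ * (C0 V (T * (N δ : ℝ) ^ 3) - κI * ((T * (N δ : ℝ) ^ 3) ^ (-(1 / 3 : ℝ)) : ℝ)) := by
    rw [h1]; push_cast; ring
  rw [h3, norm_mul, HB.norm_mob, one_mul]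
  refine h2.trans (mul_le_mul_of_nonneg_left ?_ hE)
  refine min_le_min_left _ ?_
  rw [h1]
  have h4 : (0 : ℝ) ≤ T ^ (-(1 / 3 : ℝ)) := by positivity
  have h5 : ((N δ : ℝ))⁻¹ ≤ 1 := inv_le_one_of_one_le₀ hN
  calc _ ≤ T ^ (-(1 / 3 : ℝ)) * 1 := mul_le_mul_of_nonneg_left h5 h4
    _ = _ := mul_one _

end Vale.Agent.P006.V1
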