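import Vale.Agent.P006.V1.Complete

/-!
P006, block V1: evaluation of the complete exponential sum of the dispersion.
-/

namespace Vale.Agent.P006.V1

open scoped BigOperators Classical
open Vale.Agent.P006

/-- the cubic character `χ_b(a) = (a/b)_3` with complex values -/
noncomputable def ch (b a : O) : ℂ := toC (sym a b)

/-- indicator of `x` coprime to `m` -/
noncomputable def cop (m x : O) : ℂ := if IsCoprime x m then 1 else 0

/-- indicator of primary elements -/
noncomputable def prim (x : O) : ℂ := if Primary x then 1 else 0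

/-- Ramanujan sum -/
noncomputable def ram (m k : O) : ℂ := rsum m (fun x => cop m x * E m (x * k))

/-- cubic Gauss sum `g(k,r)` -/
noncomputable def gs (r k : O) : ℂ := rsum r (fun x => ch r x * E r (x * k))

/-- Gauss sum of the conjugate character -/
noncomputable def gsc (r k : O) : ℂ := rsum r (fun x => (starRingEnd ℂ) (ch r x) * E r (x * k))

/-- `√-3 = ω - ω²` -/
def sq3 : O := ⟨1, 2⟩

theorem sq3_eq : sq3 = om * lam := by decide

theorem sq3_sq : sq3 * sq3 = -3 := by decide

theorem three_sq3 : 3 * sq3 = (-sq3) ^ 3 := by decide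

theorem sq3_ne_zero : sq3 ≠ 0 := by decide

theorem three_ne_zero' : (3 : O) ≠ 0 := by decide

theorem isCoprime_sq3 {a : O} (ha : Primary a) : IsCoprime sq3 a := by
  rw [sq3_eq]
  refine IsCoprime.mul_left ?_ ha.isCoprime_lam
  obtain ⟨u, hu⟩ := isUnit_om
  rw [← hu]
  exact ⟨((u⁻¹ : Oˣ) : O), 0, by simp⟩

theorem cop_per (m : O) : Per m (cop m) := by
  intro x y hxy
  have : IsCoprime x m ↔ IsCoprime y m := by
    rw [← isUnit_rs_iff, ← isUnit_rs_iff, rs_eq.2 hxy]
  simp only [cop, this]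

theorem cop_mul {m u : O} (hu : IsCoprime u m) (x : O) : cop m (u * x) = cop m x := by
  have : IsCoprime (u * x) m ↔ IsCoprime x m := by
    rw [IsCoprime.mul_left_iff]; tauto
  simp only [cop, this]

theorem cop_one (x : O) : cop 1 x = 1 := by simp [cop, isCoprime_one_right]

theorem ch_per (b : O) : Per b (ch b) := fun x y hxy => by
  rw [ch, ch, sym_periodic hxy]

theorem ch_mul (b x y : O) : ch b (x * y) = ch b x * ch b y := by
  rw [ch, sym_mul_left, map_mul]; rfl

theorem ch_mul_left {a b : O} (ha : a ≠ 0) (hb : b ≠ 0) (x : O) :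
    ch (a * b) x = ch a x * ch b x := by
  rw [ch, sym_mul_right x ha hb, map_mul]; rfl

@[simp] theorem ch_one_left (x : O) : ch 1 x = 1 := by simp [ch]

theorem ch_conj_mul (b x : O) : (starRingEnd ℂ) (ch b x) * ch b x = cop b x := by
  rw [mul_comm, Complex.mul_conj, Complex.normSq_eq_norm_sq, cop]
  split_ifs with h
  · rw [ch, norm_sym h]; simp
  · rw [ch, sym_eq_zero.2 h]; simp

theorem ch_cube {b x : O} (h : IsCoprime x b) : ch b (x ^ 3) = 1 := by
  rw [ch, sym_pow_left, sym_cube h, map_one]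

theorem conj_ch (b x : O) : (starRingEnd ℂ) (ch b x) = ch b x ^ 2 := conj_sym x b

theorem ch_three_sq3 {b : O} (hb : Primary b) (x : O) : ch b (3 * sq3 * x) = ch b x := by
  rw [ch_mul, three_sq3, ch_cube, one_mul]
  exact (isCoprime_sq3 hb).neg_left

theorem cop_three_sq3 {b : O} (hb : Primary b) (x : O) : cop b (3 * sq3 * x) = cop b x :=
  cop_mul (hb.isCoprime_three.mul_left (isCoprime_sq3 hb)) x

theorem prim_per : Per 3 prim := by
  intro x y hxy
  have : Primary x ↔ Primary y := by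
    constructor
    · intro h
      have : y - 1 = (x - 1) - (x - y) := by ring
      rw [Primary, this]; exact dvd_sub h hxy
    · intro h
      have : x - 1 = (y - 1) + (x - y) := by ring
      rw [Primary, this]; exact dvd_add h hxy
  simp only [prim, this]

/-- a sum with only one nonzero class -/
theorem rsum_single (m : O) [NeZero m] {h : O → ℂ} (hh : Per m h) (c : O)
    (h0 : ∀ x, ¬ m ∣ x - c → h x = 0) : rsum m h = h c := by
  rw [rsum_eq_sum, Finset.sum_eq_single (rs m c)]
  · exact hh.out c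
  · intro x _ hx
    apply h0
    rwa [← rs_eq, rs_out]
  · intro h; exact absurd (Finset.mem_univ _) h

theorem E_sq3 (x : O) : E sq3 x = 1 := by
  have h : x = om * (om ^ 2 * x) := by
    rw [← mul_assoc, ← pow_succ', om_cube, one_mul]
  have hom : om ≠ 0 := by decide
  rw [sq3_eq, h, E_mul_cancel hom]
  obtain ⟨n, hn⟩ := exists_TrC_div_lam (om ^ 2 * x)
  rw [E, hn, e_int]

/-- periodicity of `b ↦ e(Tr(bk/(√-3 m)))` modulo `m` -/
theorem E_per_sq3 {m : O} (hm : m ≠ 0) (k : O) : Per m (fun x => E (sq3 * m) (x * k)) := by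
  intro x y hxy
  obtain ⟨t, ht⟩ := hxy
  have hx : x * k = y * k + m * (t * k) := by linear_combination k * ht
  simp only [hx]
  rw [E_add, mul_comm sq3 m, E_mul_cancel hm, E_sq3, mul_one]

/-- the periodic weight of the dispersion: `conj χ_{a1}(b) χ_{a2}(b) 1_{(b,W)=1}` with
`a1 = d r1`, `a2 = d r2` -/
noncomputable def theta (W d r1 r2 x : O) : ℂ :=
  cop W x * (cop d x * ((starRingEnd ℂ) (ch r1 x) * ch r2 x))

theorem theta_per (W d r1 r2 : O) : Per (W * (d * (r1 * r2))) (theta W d r1 r2) := by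
  refine Per.mul ((cop_per W).mono (dvd_mul_right _ _)) (Per.mul ((cop_per d).mono ?_)
    (Per.mul ((ch_per r1).conj.mono ?_) ((ch_per r2).mono ?_)))
  · exact ⟨W * (r1 * r2), by ring⟩
  · exact ⟨W * (d * r2), by ring⟩
  · exact ⟨W * (d * r1), by ring⟩

theorem theta_three_sq3 {W d r1 r2 : O} (hW : Primary W) (hd : Primary d) (h1 : Primary r1)
    (h2 : Primary r2) (x : O) : theta W d r1 r2 (3 * sq3 * x) = theta W d r1 r2 x := by
  rw [theta, theta, cop_three_sq3 hW, cop_three_sq3 hd, ch_three_sq3 h1, ch_three_sq3 h2]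

theorem theta_eq {W d r1 r2 : O} (hd : d ≠ 0) (h1 : r1 ≠ 0) (h2 : r2 ≠ 0) (x : O) :
    theta W d r1 r2 x =
      cop W x * ((starRingEnd ℂ) (ch (d * r1) x) * ch (d * r2) x) := by
  rw [theta, ch_mul_left hd h1, ch_mul_left hd h2, map_mul, ← ch_conj_mul d x]
  ring

/-- the twisted complete sum modulo `q` splits -/
theorem rsum_theta {W d r1 r2 : O} (hW : W ≠ 0) (hd : d ≠ 0) (h1 : r1 ≠ 0) (h2 : r2 ≠ 0)
    (hWd : IsCoprime W (d * (r1 * r2))) (hdr : IsCoprime d (r1 * r2)) (hr : IsCoprime r1 r2)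
    (k : O) :
    rsum (W * (d * (r1 * r2))) (fun x => theta W d r1 r2 x * E (W * (d * (r1 * r2))) (x * k)) =
      ram W k * (ram d k * (((starRingEnd ℂ) (ch r1 (W * d * r2)) * gsc r1 k) *
        (ch r2 (W * d * r1) * gs r2 k))) := by
  have n1 : NeZero r1 := ⟨h1⟩
  have n2 : NeZero r2 := ⟨h2⟩
  have n3 : NeZero d := ⟨hd⟩
  have n4 : NeZero (r1 * r2) := ⟨mul_ne_zero h1 h2⟩
  have n5 : NeZero (d * (r1 * r2)) := ⟨mul_ne_zero hd (mul_ne_zero h1 h2)⟩
  -- the modulus r1 * r2
  have s1 : rsum (r1 * r2) (fun x => (starRingEnd ℂ) (ch r1 (W * d * x)) * ch r2 (W * d * x) *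
        E (r1 * r2) (x * k)) =
      ((starRingEnd ℂ) (ch r1 (W * d * r2)) * gsc r1 k) * (ch r2 (W * d * r1) * gs r2 k) := by
    have p1 : Per r1 (fun x => (starRingEnd ℂ) (ch r1 (W * d * x))) :=
      (Per.comp_mul (ch_per r1) (W * d)).conj
    have p2 : Per r2 (fun x => ch r2 (W * d * x)) := Per.comp_mul (ch_per r2) (W * d)
    rw [rsum_mul_E h1 h2 hr p1 p2 k]
    congr 1
    · rw [gsc, ← rsum_const_mul]
      refine rsum_congr fun x => ?_
      rw [← mul_assoc (W * d) r2 x, ch_mul r1 (W * d * r2) x, map_mul]; ring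
    · rw [gs, ← rsum_const_mul]
      refine rsum_congr fun x => ?_
      rw [← mul_assoc (W * d) r1 x, ch_mul r2 (W * d * r1) x]; ring
  -- the modulus d * (r1 * r2)
  have s2 : rsum (d * (r1 * r2)) (fun x => (cop d (W * x) * ((starRingEnd ℂ) (ch r1 (W * x)) *
        ch r2 (W * x))) * E (d * (r1 * r2)) (x * k)) =
      ram d k * rsum (r1 * r2) (fun x => (starRingEnd ℂ) (ch r1 (W * d * x)) *
        ch r2 (W * d * x) * E (r1 * r2) (x * k)) := by
    have p1 : Per d (fun x => cop d (W * x)) := Per.comp_mul (cop_per d) W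
    have p2 : Per (r1 * r2) (fun x => (starRingEnd ℂ) (ch r1 (W * x)) * ch r2 (W * x)) :=
      ((Per.comp_mul (ch_per r1) W).conj.mono (dvd_mul_right _ _)).mul
        ((Per.comp_mul (ch_per r2) W).mono (dvd_mul_left _ _))
    rw [rsum_mul_E hd (mul_ne_zero h1 h2) hdr p1 p2 k]
    congr 1
    · refine rsum_congr fun x => ?_
      have hc : IsCoprime (W * (r1 * r2)) d :=
        IsCoprime.mul_left (IsCoprime.of_mul_right_left hWd) hdr.symm
      rw [← mul_assoc W (r1 * r2) x, cop_mul hc]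
    · refine rsum_congr fun x => ?_
      rw [← mul_assoc W d x]
  -- the modulus W * (d * (r1 * r2))
  rw [rsum_congr (h' := fun x => cop W x * (cop d x * ((starRingEnd ℂ) (ch r1 x) * ch r2 x)) *
    E (W * (d * (r1 * r2))) (x * k)) (fun x => by rw [theta])]
  have p1 : Per W (cop W) := cop_per W
  have p2 : Per (d * (r1 * r2)) (fun x => cop d x * ((starRingEnd ℂ) (ch r1 x) * ch r2 x)) := by
    refine Per.mul ((cop_per d).mono (dvd_mul_right _ _))
      (Per.mul ((ch_per r1).conj.mono ⟨d * r2, by ring⟩) ((ch_per r2).mono ⟨d * r1, by ring⟩))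
  rw [rsum_mul_E hW (mul_ne_zero hd (mul_ne_zero h1 h2)) hWd p1 p2 k, s2, s1]
  congr 1
  refine rsum_congr fun x => ?_
  rw [cop_mul hWd.symm]

/-- evaluation of the complete sum modulo `3 q`, `q = W d r1 r2` -/
theorem complete_sum {W d r1 r2 : O} (hW : Primary W) (hd : Primary d) (h1 : Primary r1)
    (h2 : Primary r2)
    (hWd : IsCoprime W (d * (r1 * r2))) (hdr : IsCoprime d (r1 * r2)) (hr : IsCoprime r1 r2)
    (k : O) :
    rsum (3 * (W * (d * (r1 * r2)))) (fun b => prim b * theta W d r1 r2 b *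
        E (sq3 * (3 * (W * (d * (r1 * r2))))) (b * k)) =
      E (sq3 * 3) k * (ram W k * (ram d k * (((starRingEnd ℂ) (ch r1 (W * d * r2)) * gsc r1 k) *
        (ch r2 (W * d * r1) * gs r2 k)))) := by
  set q := W * (d * (r1 * r2)) with hq
  have hqp : Primary q := hW.mul (hd.mul (h1.mul h2))
  have hq0 : q ≠ 0 := hqp.ne_zero
  have nq : NeZero q := ⟨hq0⟩
  have n3 : NeZero (3 : O) := ⟨three_ne_zero'⟩
  have h3q : (3 : O) * q ≠ 0 := mul_ne_zero three_ne_zero' hq0
  set H : O → ℂ := fun b => prim b * theta W d r1 r2 b * E (sq3 * (3 * q)) (b * k) with hH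
  have hper : Per (3 * q) H :=
    ((prim_per.mono (dvd_mul_right _ _)).mul ((theta_per W d r1 r2).mono (dvd_mul_left _ _))).mul
      (E_per_sq3 h3q k)
  rw [rsum_crt three_ne_zero' hq0 hqp.isCoprime_three hper]
  have hF : Per 3 (fun x => rsum q (fun y => H (q * x + 3 * y))) := by
    intro x x' hx
    refine rsum_congr fun y => hper _ _ ?_
    obtain ⟨t, ht⟩ := hx
    exact ⟨t, by linear_combination q * ht⟩
  rw [rsum_single 3 hF 1]
  · simp only [mul_one]
    have e1 : ∀ y : O, H (q + 3 * y) =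
        E (sq3 * 3) k * (theta W d r1 r2 (3 * y) * E (sq3 * q) (y * k)) := by
      intro y
      have a1 : prim (q + 3 * y) = 1 := by
        rw [prim_per (q + 3 * y) q ⟨y, by ring⟩]; simp [prim, hqp]
      have a2 : theta W d r1 r2 (q + 3 * y) = theta W d r1 r2 (3 * y) :=
        theta_per W d r1 r2 _ _ ⟨1, by ring⟩
      have a3 : (q + 3 * y) * k = q * k + 3 * (y * k) := by ring
      have a4 : sq3 * (3 * q) = q * (sq3 * 3) := by ring
      have a5 : E (sq3 * (3 * q)) (q * k) = E (sq3 * 3) k := by rw [a4, E_mul_cancel hq0]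
      have a6 : E (sq3 * (3 * q)) (3 * (y * k)) = E (sq3 * q) (y * k) := by
        have : sq3 * (3 * q) = 3 * (sq3 * q) := by ring
        rw [this, E_mul_cancel three_ne_zero']
      simp only [hH]
      rw [a1, a2, a3, E_add, a5, a6]; ring
    simp only [e1, rsum_const_mul]
    congr 1
    have hG : Per q (fun y => theta W d r1 r2 (3 * y) * E (sq3 * q) (y * k)) :=
      (Per.comp_mul (theta_per W d r1 r2) 3).mul (E_per_sq3 hq0 k)
    rw [← rsum_comp_mul (isCoprime_sq3 hqp) hG]
    rw [← rsum_theta hW.ne_zero hd.ne_zero h1.ne_zero h2.ne_zero hWd hdr hr k]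
    refine rsum_congr fun y => ?_
    rw [← mul_assoc, theta_three_sq3 hW hd h1 h2, mul_assoc sq3 y k, E_mul_cancel sq3_ne_zero]
  · intro x hx
    rw [rsum_eq_sum]
    refine Finset.sum_eq_zero fun y _ => ?_
    have : prim (q * x + 3 * Quotient.out y) = 0 := by
      rw [prim_per (q * x + 3 * Quotient.out y) (q * x) ⟨Quotient.out y, by ring⟩, prim, if_neg]
      intro h
      exact hx (hqp.of_mul h)
    simp only [hH, this, zero_mul]

end Vale.Agent.P006.V1
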