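import Vale.Agent.P006.V1.Mellin
import Vale.Agent.P006.CR.Basic
import Mathlib.Analysis.Distribution.SchwartzSpace.Fourier
import Mathlib.Analysis.Complex.Isometry
import Mathlib.LinearAlgebra.Complex.FiniteDimensional
import Mathlib.MeasureTheory.Measure.Haar.OfBasis

/-!
P006, block V1: Fourier transforms of radial Schwartz functions on `ℂ`.
-/

namespace Vale.Agent.P006.V1

open MeasureTheory Complex
open scoped SchwartzMap FourierTransform
open Vale.Agent.P006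

/-- `∫ f(z) e(-Tr(z y)) dz` -/
noncomputable def FT (f : ℂ → ℂ) (y : ℂ) : ℂ := ∫ z : ℂ, f z * e (-(TrC (z * y)))

theorem e_neg_TrC_eq (z y : ℂ) :
    e (-(TrC (z * y))) = (Real.fourierChar (-(inner ℝ z (2 * (starRingEnd ℂ) y))) : ℂ) := by
  rw [Real.fourierChar_apply, e]
  congr 1
  have : (inner ℝ z (2 * (starRingEnd ℂ) y) : ℝ) = TrC (z * y) := by
    rw [Complex.inner]
    simp [TrC]; ring
  rw [this]; push_cast; ring

theorem FT_eq (f : 𝓢(ℂ, ℂ)) (y : ℂ) : FT f y = 𝓕 f (2 * (starRingEnd ℂ) y) := by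
  rw [SchwartzMap.fourier_coe, Real.fourier_eq, FT]
  refine integral_congr_ae (Filter.Eventually.of_forall fun z => ?_)
  simp only
  rw [e_neg_TrC_eq, Circle.smul_def, smul_eq_mul, mul_comm]

/-- the doubling map `x ↦ 2x` from `ℝ` to `ℂ` as a continuous linear map -/
noncomputable def dbl : ℝ →L[ℝ] ℂ := (2 : ℝ) • Complex.ofRealCLM

theorem dbl_apply (x : ℝ) : dbl x = 2 * (x : ℂ) := by simp [dbl]

theorem dbl_antilipschitz : AntilipschitzWith 1 dbl := by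
  refine AddMonoidHomClass.antilipschitz_of_bound dbl fun x => ?_
  rw [dbl_apply, norm_mul, Complex.norm_real]
  simp only [Real.norm_eq_abs, NNReal.coe_one, one_mul, Complex.norm_ofNat]
  nlinarith [abs_nonneg x]

/-- the restriction `x ↦ FT f x` to the real line, a Schwartz function -/
noncomputable def WT (f : 𝓢(ℂ, ℂ)) : 𝓢(ℝ, ℂ) :=
  SchwartzMap.compCLMOfAntilipschitz ℂ dbl.hasTemperateGrowth dbl_antilipschitz (𝓕 f)

theorem WT_apply (f : 𝓢(ℂ, ℂ)) (x : ℝ) : WT f x = FT f (x : ℂ) := by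
  rw [FT_eq, WT, SchwartzMap.compCLMOfAntilipschitz_apply, Function.comp_apply, dbl_apply,
    Complex.conj_ofReal]

/-- rotation invariance -/
theorem FT_rotate (f : ℂ → ℂ) (hf : ∀ u z : ℂ, ‖u‖ = 1 → f (u * z) = f z) (u y : ℂ)
    (hu : ‖u‖ = 1) : FT f (u * y) = FT f y := by
  rw [FT, FT]
  obtain ⟨U, hU⟩ : ∃ U : Circle, (U : ℂ) = u := ⟨⟨u, mem_sphere_zero_iff_norm.2 hu⟩, rfl⟩
  have hmp : MeasurePreserving (rotation U) volume volume :=
    (rotation U).measurePreserving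
  have hemb : MeasurableEmbedding (rotation U) :=
    (rotation U).toHomeomorph.measurableEmbedding
  rw [← hmp.integral_comp hemb (fun z => f z * e (-(TrC (z * y))))]
  refine integral_congr_ae (Filter.Eventually.of_forall fun z => ?_)
  simp only [rotation_apply, hU]
  rw [hf u z hu]
  congr 4
  ring

theorem FT_radial (f : 𝓢(ℂ, ℂ)) (hf : ∀ u z : ℂ, ‖u‖ = 1 → f (u * z) = f z) (y : ℂ) :
    FT f y = WT f ‖y‖ := by
  rw [WT_apply]
  by_cases hy : y = 0
  · subst hy; simp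
  · have hn : (‖y‖ : ℂ) ≠ 0 := by exact_mod_cast norm_ne_zero_iff.2 hy
    have h1 : y = (y / ‖y‖) * (‖y‖ : ℂ) := by field_simp
    have h2 : ‖y / (‖y‖ : ℂ)‖ = 1 := by
      rw [norm_div, Complex.norm_real, norm_norm, div_self (norm_ne_zero_iff.2 hy)]
    conv_lhs => rw [h1]
    exact FT_rotate f hf _ _ h2

/-- `z ↦ z / √B` as a continuous linear equivalence -/
noncomputable def dilL (B : ℝ) (hB : 0 < B) : ℂ ≃L[ℝ] ℂ :=
  ContinuousLinearEquiv.smulLeft
    (Units.mk0 (Real.sqrt B)⁻¹ (inv_ne_zero (Real.sqrt_pos.2 hB).ne'))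

theorem dilL_apply (B : ℝ) (hB : 0 < B) (z : ℂ) : dilL B hB z = ((Real.sqrt B)⁻¹ : ℝ) * z := by
  rw [dilL, ContinuousLinearEquiv.smulLeft_apply_apply]
  rfl

/-- `z ↦ f (z / √B)` -/
noncomputable def dil (f : 𝓢(ℂ, ℂ)) (B : ℝ) (hB : 0 < B) : 𝓢(ℂ, ℂ) :=
  SchwartzMap.compCLMOfContinuousLinearEquiv ℂ (dilL B hB) f

theorem dil_apply (f : 𝓢(ℂ, ℂ)) (B : ℝ) (hB : 0 < B) (z : ℂ) :
    dil f B hB z = f (((Real.sqrt B)⁻¹ : ℝ) * z) := by
  rw [dil, SchwartzMap.compCLMOfContinuousLinearEquiv_apply, Function.comp_apply, dilL_apply]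

theorem FT_dil (f : 𝓢(ℂ, ℂ)) (B : ℝ) (hB : 0 < B) (y : ℂ) :
    FT (dil f B hB) y = B * FT f ((Real.sqrt B : ℝ) * y) := by
  have h0 : (Real.sqrt B)⁻¹ ≠ 0 := inv_ne_zero (Real.sqrt_pos.2 hB).ne'
  have h1 := Measure.integral_comp_smul (volume : Measure ℂ)
    (fun z : ℂ => f z * e (-(TrC (z * ((Real.sqrt B : ℝ) * y))))) ((Real.sqrt B)⁻¹)
  rw [Complex.finrank_real_complex] at h1
  have h2 : |(((Real.sqrt B)⁻¹) ^ 2)⁻¹| = B := by
    rw [inv_pow, inv_inv, Real.sq_sqrt hB.le, abs_of_pos hB]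
  rw [h2] at h1
  rw [FT, FT, ← Complex.real_smul, ← h1]
  refine integral_congr_ae (Filter.Eventually.of_forall fun z => ?_)
  simp only
  rw [dil_apply, Complex.real_smul]
  congr 4
  have : (((Real.sqrt B)⁻¹ : ℝ) : ℂ) * ((Real.sqrt B : ℝ) : ℂ) = 1 := by
    rw [← Complex.ofReal_mul, inv_mul_cancel₀ (Real.sqrt_pos.2 hB).ne']; simp
  linear_combination (-z * y) * this

end Vale.Agent.P006.V1
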