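import Vale.Agent.P006.V1.Phase
import Vale.Agent.P006.V1.Radial

/-!
P006, block V1: the exact pair formula (Poisson summation + cancellation of Gauss sums).
-/

namespace Vale.Agent.P006.V1

open scoped BigOperators Classical SchwartzMap
open Vale.Agent.P006

/-- Poisson summation on `O` for Schwartz functions with a periodic weight. -/
def PoissonInput : Prop :=
  ∀ (f : 𝓢(ℂ, ℂ)) (m : O) (ψ : O → ℂ), m ≠ 0 → Per m ψ →
    ∑' x : O, ψ x * f (toC x) = ((2 / (Real.sqrt 3 * N m) : ℝ) : ℂ) *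
      ∑' k : O, rsum m (fun a => ψ a * E (sq3 * m) (a * k)) * FT f (toC k / toC (sq3 * m))

theorem N_sq3 : N sq3 = 3 := by decide

theorem N_three : N (3 : O) = 9 := by decide

/-- `V°(t)` for the radial function `f(z) = V(|z|²)` -/
noncomputable def Vo (f : 𝓢(ℂ, ℂ)) (t : ℝ) : ℂ := WT f (Real.sqrt t)

theorem FT_dil_eq (f : 𝓢(ℂ, ℂ)) (hf : ∀ u z : ℂ, ‖u‖ = 1 → f (u * z) = f z) {B : ℝ}
    (hB : 0 < B) (q k : O) :
    FT (dil f B hB) (toC k / toC (sq3 * (3 * q))) = B * Vo f (B * N k / (27 * N q)) := by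
  rw [FT_dil, FT_radial f hf, Vo]
  congr 2
  rw [norm_mul, norm_div, Complex.norm_real, Real.norm_of_nonneg (Real.sqrt_nonneg _), norm_toC,
    norm_toC, ← Real.sqrt_div (by positivity), ← Real.sqrt_mul hB.le]
  congr 1
  rw [N_mul, N_mul, N_sq3, N_three]
  push_cast
  rw [mul_div_assoc]
  congr 2
  ring

theorem pair_formula (hP : PoissonInput) (hC : CubicInput) (f : 𝓢(ℂ, ℂ))
    (hf : ∀ u z : ℂ, ‖u‖ = 1 → f (u * z) = f z) {B : ℝ} (hB : 0 < B)
    {W d r1 r2 : O} (hW : Primary W) (hd : Primary d)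
    (h1 : Primary r1) (h2 : Primary r2) (sd : Squarefree d) (s1 : Squarefree r1)
    (s2 : Squarefree r2)
    (hWd : IsCoprime W (d * (r1 * r2))) (hdr : IsCoprime d (r1 * r2)) (hr : IsCoprime r1 r2) :
    gn (d * r1) * (starRingEnd ℂ) (gn (d * r2)) *
      ∑' b : O, prim b * theta W d r1 r2 b * f ((((Real.sqrt B)⁻¹ : ℝ) : ℂ) * toC b) =
    ((2 * B / (9 * Real.sqrt 3 * N W * N d * Real.sqrt (N (r1 * r2))) : ℝ) : ℂ) *
      ∑' k : O, E (sq3 * 3) k * ram W k * ram d k *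
        (ch r1 (k * d * W ^ 2) * (starRingEnd ℂ) (ch r2 (k * d * W ^ 2))) *
        Vo f (B * N k / (27 * N (W * (d * (r1 * r2))))) := by
  set q := W * (d * (r1 * r2)) with hq
  have hqp : Primary q := hW.mul (hd.mul (h1.mul h2))
  have hq0 : q ≠ 0 := hqp.ne_zero
  have h3q : (3 : O) * q ≠ 0 := mul_ne_zero three_ne_zero' hq0
  have hper : Per (3 * q) (fun b => prim b * theta W d r1 r2 b) :=
    (prim_per.mono (dvd_mul_right _ _)).mul ((theta_per W d r1 r2).mono (dvd_mul_left _ _))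
  have key := hP (dil f B hB) (3 * q) (fun b => prim b * theta W d r1 r2 b) h3q hper
  have e1 : ∀ b : O, prim b * theta W d r1 r2 b * f ((((Real.sqrt B)⁻¹ : ℝ) : ℂ) * toC b) =
      (fun b => prim b * theta W d r1 r2 b) b * (dil f B hB) (toC b) := by
    intro b; rw [dil_apply]
  rw [tsum_congr e1, key, ← tsum_mul_left, ← tsum_mul_left, ← tsum_mul_left]
  refine tsum_congr fun k => ?_
  rw [complete_sum hW hd h1 h2 hWd hdr hr k, FT_dil_eq f hf hB]
  have ph := hC.phase hW hd h1 h2 sd s1 s2 hWd hdr hr k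
  have pN : (0 : ℝ) < N (r1 * r2) := by exact_mod_cast N_pos (mul_ne_zero h1.ne_zero h2.ne_zero)
  have pW : (0 : ℝ) < N W := by exact_mod_cast N_pos hW.ne_zero
  have pd : (0 : ℝ) < N d := by exact_mod_cast N_pos hd.ne_zero
  have hs : (Real.sqrt (N (r1 * r2)) : ℝ) * Real.sqrt (N (r1 * r2)) = N (r1 * r2) :=
    Real.mul_self_sqrt pN.le
  have hsp : 0 < Real.sqrt (N (r1 * r2)) := Real.sqrt_pos.2 pN
  have s3 : 0 < Real.sqrt 3 := Real.sqrt_pos.2 (by norm_num)
  have hcoef : (2 / (Real.sqrt 3 * N (3 * q)) : ℝ) * B * Real.sqrt (N (r1 * r2)) =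
      2 * B / (9 * Real.sqrt 3 * N W * N d * Real.sqrt (N (r1 * r2))) := by
    have : (N (3 * q) : ℝ) = 9 * (N W * (N d * (Real.sqrt (N (r1 * r2)) *
        Real.sqrt (N (r1 * r2))))) := by
      rw [hs, hq, N_mul, N_three, N_mul, N_mul]; push_cast; ring
    rw [this]
    field_simp
  rw [← hcoef, Complex.ofReal_mul, Complex.ofReal_mul]
  generalize ((2 / (Real.sqrt 3 * N (3 * q)) : ℝ) : ℂ) = c0
  linear_combination (c0 *
    (E (sq3 * 3) k * (ram W k * ram d k)) * (B * Vo f (B * N k / (27 * N q)))) * ph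

end Vale.Agent.P006.V1
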