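import Vale.Agent.P006.CR.Symbol

/-!
P006, block V1: sums over residue classes and the complete exponential sums of the dispersion.
-/

namespace Vale.Agent.P006.V1

open scoped BigOperators
open Vale.Agent.P006

/-- `h : O → ℂ` depends only on the residue class modulo `m`. -/
def Per (m : O) (h : O → ℂ) : Prop := ∀ x y : O, m ∣ x - y → h x = h y

/-- the sum of `h` over a set of representatives of the residue classes modulo `m` -/
noncomputable def rsum (m : O) (h : O → ℂ) : ℂ :=
  ∑ᶠ x : Rs m, h (Quotient.out x)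

theorem rs_out {m : O} (x : Rs m) : rs m (Quotient.out x) = x := Quotient.out_eq' x

theorem Per.out {m : O} {h : O → ℂ} (hh : Per m h) (x : O) :
    h (Quotient.out (rs m x)) = h x := by
  apply hh
  rw [← rs_eq, rs_out]

theorem Per.mono {m m' : O} {h : O → ℂ} (hh : Per m h) (hm : m ∣ m') : Per m' h :=
  fun x y hxy => hh x y (hm.trans hxy)

theorem Per.mul {m : O} {h h' : O → ℂ} (hh : Per m h) (hh' : Per m h') :
    Per m (fun x => h x * h' x) := fun x y hxy => by
  simp only [hh x y hxy, hh' x y hxy]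

theorem Per.comp_mul {m : O} {h : O → ℂ} (hh : Per m h) (u : O) : Per m (fun x => h (u * x)) :=
  fun x y hxy => hh _ _ (by rw [← mul_sub]; exact Dvd.dvd.mul_left hxy u)

theorem Per.conj {m : O} {h : O → ℂ} (hh : Per m h) : Per m (fun x => (starRingEnd ℂ) (h x)) :=
  fun x y hxy => by simp only [hh x y hxy]

theorem rsum_eq_sum (m : O) [NeZero m] (h : O → ℂ) :
    rsum m h = ∑ x : Rs m, h (Quotient.out x) := by
  rw [rsum, finsum_eq_sum_of_fintype]

theorem rsum_congr {m : O} {h h' : O → ℂ} (hh : ∀ x, h x = h' x) : rsum m h = rsum m h' := by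
  have : h = h' := funext hh
  rw [this]

theorem rsum_const_mul (m : O) [NeZero m] (c : ℂ) (h : O → ℂ) :
    rsum m (fun x => c * h x) = c * rsum m h := by
  rw [rsum_eq_sum, rsum_eq_sum, Finset.mul_sum]

theorem rsum_conj (m : O) [NeZero m] (h : O → ℂ) :
    rsum m (fun x => (starRingEnd ℂ) (h x)) = (starRingEnd ℂ) (rsum m h) := by
  rw [rsum_eq_sum, rsum_eq_sum, map_sum]

/-- the change of variables `x ↦ u x` for `u` coprime to `m` -/
theorem rsum_comp_mul {m u : O} [NeZero m] (hu : IsCoprime u m) {h : O → ℂ} (hh : Per m h) :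
    rsum m (fun x => h (u * x)) = rsum m h := by
  rw [rsum_eq_sum, rsum_eq_sum]
  obtain ⟨U, hU⟩ := isUnit_rs_iff.2 hu
  refine Fintype.sum_equiv (Units.mulLeft U) _ _ fun x => ?_
  rw [Units.mulLeft_apply, hU]
  obtain ⟨y, rfl⟩ := rs_surj m x
  show h (u * Quotient.out (rs m y)) = h (Quotient.out (rs m u * rs m y))
  rw [← map_mul, hh.out]
  exact hh _ _ (by rw [← mul_sub, ← rs_eq_zero, map_mul, map_sub, rs_out, sub_self, mul_zero])

/-- Chinese remainder theorem for sums of periodic functions -/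
theorem rsum_crt {a b : O} (ha : a ≠ 0) (hb : b ≠ 0) (hab : IsCoprime a b) {h : O → ℂ}
    (hh : Per (a * b) h) :
    rsum (a * b) h = rsum a (fun x => rsum b (fun y => h (b * x + a * y))) := by
  have : NeZero a := ⟨ha⟩
  have : NeZero b := ⟨hb⟩
  have : NeZero (a * b) := ⟨mul_ne_zero ha hb⟩
  rw [rsum_eq_sum, rsum_eq_sum, sum_crt ha hb hab]
  refine Finset.sum_congr rfl fun x _ => ?_
  rw [rsum_eq_sum]
  refine Finset.sum_congr rfl fun y _ => ?_
  have h1 : mulL b a (a * b) (mul_comm a b) x + mulL a b (a * b) rfl y =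
      rs (a * b) (b * Quotient.out x + a * Quotient.out y) := by
    rw [map_add, ← mulL_rs b a (a * b) (mul_comm a b), ← mulL_rs a b (a * b) rfl, rs_out, rs_out]
  rw [h1, hh.out]

/-- `e(Tr(x/m))` -/
noncomputable def E (m x : O) : ℂ := e (TrC (toC x / toC m))

theorem E_eq_psi (m x : O) : E m x = psi m (rs m x) := rfl

theorem E_add (m x y : O) : E m (x + y) = E m x * E m y := by
  rw [E_eq_psi, map_add, AddChar.map_add_eq_mul]; rfl

theorem E_zero (m : O) : E m 0 = 1 := by rw [E_eq_psi, map_zero, AddChar.map_zero_eq_one]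

theorem norm_E (m x : O) : ‖E m x‖ = 1 := norm_e _

theorem E_per (m k : O) : Per m (fun x => E m (x * k)) := by
  intro x y hxy
  have h : rs m (x * k) = rs m (y * k) := by
    rw [rs_eq, ← sub_mul]; exact Dvd.dvd.mul_right hxy k
  show psi m (rs m (x * k)) = psi m (rs m (y * k))
  rw [h]

theorem E_mul_cancel {a : O} (ha : a ≠ 0) (b x : O) : E (a * b) (a * x) = E b x := by
  rw [E, E, map_mul, map_mul, mul_div_mul_left _ _ (by simpa using ha)]

/-- the two-factor formula for twisted complete sums -/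
theorem rsum_mul_E {a b : O} (ha : a ≠ 0) (hb : b ≠ 0) (hab : IsCoprime a b) {f g : O → ℂ}
    (hf : Per a f) (hg : Per b g) (k : O) :
    rsum (a * b) (fun x => f x * g x * E (a * b) (x * k)) =
      rsum a (fun x => f (b * x) * E a (x * k)) * rsum b (fun y => g (a * y) * E b (y * k)) := by
  have : NeZero a := ⟨ha⟩
  have : NeZero b := ⟨hb⟩
  have hper : Per (a * b) (fun x => f x * g x * E (a * b) (x * k)) :=
    ((hf.mono (dvd_mul_right a b)).mul (hg.mono (dvd_mul_left b a))).mul (E_per (a * b) k)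
  rw [rsum_crt ha hb hab hper]
  have h1 : ∀ x y : O, f (b * x + a * y) * g (b * x + a * y) * E (a * b) ((b * x + a * y) * k) =
      (f (b * x) * E a (x * k)) * (g (a * y) * E b (y * k)) := by
    intro x y
    have e1 : f (b * x + a * y) = f (b * x) := hf _ _ (by
      rw [add_sub_cancel_left]; exact dvd_mul_right a y)
    have e2 : g (b * x + a * y) = g (a * y) := hg _ _ (by
      rw [add_sub_cancel_right]; exact dvd_mul_right b x)
    have e3 : (b * x + a * y) * k = b * (x * k) + a * (y * k) := by ring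
    rw [e1, e2, e3, E_add, E_mul_cancel ha, mul_comm a b, E_mul_cancel hb]
    ring
  simp only [h1, rsum_const_mul]
  rw [rsum_eq_sum a, rsum_eq_sum a, Finset.sum_mul]

end Vale.Agent.P006.V1
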