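import Mathlib.Analysis.MellinInversion
import Mathlib.Analysis.Distribution.SchwartzSpace.Deriv

/-!
P006, block V1: separation of variables by Mellin inversion for Schwartz functions.
-/

namespace Vale.Agent.P006.V1

open MeasureTheory Set Filter Complex Asymptotics
open scoped Topology SchwartzMap

theorem schwartz_isBigO_top (W : 𝓢(ℝ, ℂ)) (a : ℝ) :
    (W : ℝ → ℂ) =O[atTop] fun x : ℝ => x ^ (-a) := by
  have h := W.isBigO_cocompact_rpow (-a)
  have h2 : (W : ℝ → ℂ) =O[atTop] fun x : ℝ => ‖x‖ ^ (-a) :=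
    h.mono atTop_le_cocompact
  refine h2.congr' (Eventually.of_forall fun _ => rfl) ?_
  filter_upwards [eventually_gt_atTop 0] with x hx
  rw [Real.norm_of_nonneg hx.le]

theorem schwartz_isBigO_zero (W : 𝓢(ℝ, ℂ)) :
    (W : ℝ → ℂ) =O[𝓝[>] 0] fun x : ℝ => x ^ (-(0 : ℝ)) := by
  have h : (W : ℝ → ℂ) =O[𝓝 0] fun _ : ℝ => (1 : ℝ) :=
    W.continuous.continuousAt.isBigO_one ℝ
  have h1 := h.mono (nhdsWithin_le_nhds (s := Ioi (0 : ℝ)))
  refine h1.congr' (Eventually.of_forall fun _ => rfl) ?_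
  exact Eventually.of_forall fun x => by simp

theorem schwartz_mellinConvergent (W : 𝓢(ℝ, ℂ)) {s : ℂ} (hs : 0 < s.re) :
    MellinConvergent (W : ℝ → ℂ) s :=
  mellinConvergent_of_isBigO_rpow (a := s.re + 1) (b := 0)
    (W.continuous.locallyIntegrable.locallyIntegrableOn _)
    (schwartz_isBigO_top W _) (by linarith) (schwartz_isBigO_zero W) hs

/-- `s * M W (s) = - M W' (s+1)` -/
theorem mellin_by_parts (W : 𝓢(ℝ, ℂ)) {s : ℂ} (hs : 0 < s.re) :
    s * mellin (W : ℝ → ℂ) s = - mellin (SchwartzMap.derivCLM ℂ ℂ W : ℝ → ℂ) (s + 1) := by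
  have hs0 : s ≠ 0 := by rintro rfl; simp at hs
  have h1 : IntegrableOn ((fun x : ℝ => W x) * (fun x : ℝ => s * (x : ℂ) ^ (s - 1))) (Ioi 0) := by
    have : IntegrableOn (fun x : ℝ => s * (x : ℂ) ^ (s - 1) • W x) (Ioi 0) :=
      (schwartz_mellinConvergent W hs).const_mul s
    refine IntegrableOn.congr_fun this (fun x _ => ?_) measurableSet_Ioi
    simp only [smul_eq_mul, Pi.mul_apply]; ring
  have h2 : IntegrableOn ((fun x : ℝ => SchwartzMap.derivCLM ℂ ℂ W x) *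
      (fun x : ℝ => (x : ℂ) ^ s)) (Ioi 0) := by
    have : IntegrableOn (fun x : ℝ => (x : ℂ) ^ (s + 1 - 1) • SchwartzMap.derivCLM ℂ ℂ W x)
        (Ioi 0) := schwartz_mellinConvergent (SchwartzMap.derivCLM ℂ ℂ W) (s := s + 1)
      (by simp; linarith)
    refine IntegrableOn.congr_fun this (fun x _ => ?_) measurableSet_Ioi
    simp only [smul_eq_mul, Pi.mul_apply, add_sub_cancel_right]; ring
  have hz : Tendsto ((fun x : ℝ => W x) * (fun x : ℝ => (x : ℂ) ^ s)) (𝓝[>] 0) (𝓝 0) := by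
    have ha : Tendsto (fun x : ℝ => W x) (𝓝[>] 0) (𝓝 (W 0)) :=
      (W.continuous.tendsto 0).mono_left nhdsWithin_le_nhds
    have hb : Tendsto (fun x : ℝ => (x : ℂ) ^ s) (𝓝[>] 0) (𝓝 0) := by
      have hc : ContinuousAt (fun x : ℝ => (x : ℂ) ^ s) 0 := by
        have := Complex.continuousAt_ofReal_cpow_const (0 : ℝ) s (Or.inl hs)
        exact this
      have hd := hc.tendsto
      simp only [ofReal_zero, Complex.zero_cpow hs0] at hd
      exact hd.mono_left nhdsWithin_le_nhds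
    have := ha.mul hb
    rw [mul_zero] at this
    exact this
  have hi : Tendsto ((fun x : ℝ => W x) * (fun x : ℝ => (x : ℂ) ^ s)) atTop (𝓝 0) := by
    rw [tendsto_zero_iff_norm_tendsto_zero]
    have hO := schwartz_isBigO_top W (s.re + 1)
    have hO2 : (fun x : ℝ => ‖((fun x : ℝ => W x) * (fun x : ℝ => (x : ℂ) ^ s)) x‖) =O[atTop]
        fun x : ℝ => x ^ (-(1 : ℝ)) := by
      have h3 : (fun x : ℝ => (x : ℂ) ^ s) =O[atTop] fun x : ℝ => x ^ (s.re) := by
        refine IsBigO.of_bound 1 ?_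
        filter_upwards [eventually_gt_atTop 0] with x hx
        rw [Complex.norm_cpow_eq_rpow_re_of_pos hx, Real.norm_of_nonneg (by positivity)]
        simp
      have h4 := (hO.mul h3).norm_left
      refine h4.congr' (Eventually.of_forall fun _ => rfl) ?_
      filter_upwards [eventually_gt_atTop 0] with x hx
      rw [← Real.rpow_add hx]; congr 1; ring
    refine hO2.trans_tendsto ?_
    exact tendsto_rpow_neg_atTop one_pos
  have key := integral_Ioi_mul_deriv_eq_deriv_mul (u := fun x : ℝ => W x)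
    (v := fun x : ℝ => (x : ℂ) ^ s) (u' := fun x : ℝ => SchwartzMap.derivCLM ℂ ℂ W x)
    (v' := fun x : ℝ => s * (x : ℂ) ^ (s - 1)) (a := 0)
    (fun x _ => by
      rw [SchwartzMap.derivCLM_apply]; exact (W.differentiableAt).hasDerivAt)
    (fun x hx => by
      have := hasDerivAt_ofReal_cpow_const (ne_of_gt hx) hs0
      exact this)
    h1 h2 hz hi
  rw [mellin, mellin, ← smul_eq_mul, ← integral_smul]
  have e1 : (∫ t : ℝ in Ioi 0, s • (t : ℂ) ^ (s - 1) • W t) =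
      ∫ x : ℝ in Ioi 0, W x * (s * (x : ℂ) ^ (s - 1)) := by
    refine setIntegral_congr_fun measurableSet_Ioi fun t _ => ?_
    simp only [smul_eq_mul]; ring
  have e2 : (∫ t : ℝ in Ioi 0, (t : ℂ) ^ (s + 1 - 1) • SchwartzMap.derivCLM ℂ ℂ W t) =
      ∫ x : ℝ in Ioi 0, SchwartzMap.derivCLM ℂ ℂ W x * (x : ℂ) ^ s := by
    refine setIntegral_congr_fun measurableSet_Ioi fun t _ => ?_
    simp only [smul_eq_mul, add_sub_cancel_right]; ring
  rw [e1, e2, key]; simp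

/-- crude bound of the Mellin transform on a vertical line -/
theorem mellin_bound (W : 𝓢(ℝ, ℂ)) {σ : ℝ} (_hσ : 0 < σ) : ∃ C : ℝ, 0 ≤ C ∧ ∀ t : ℝ,
    ‖mellin (W : ℝ → ℂ) (σ + t * I)‖ ≤ C := by
  refine ⟨∫ x : ℝ in Ioi 0, ‖(x : ℂ) ^ ((σ : ℂ) - 1) • W x‖, by positivity, fun t => ?_⟩
  rw [mellin]
  refine (norm_integral_le_integral_norm _).trans (le_of_eq ?_)
  refine setIntegral_congr_fun measurableSet_Ioi fun x hx => ?_
  simp only [norm_smul]
  rw [Complex.norm_cpow_eq_rpow_re_of_pos hx, Complex.norm_cpow_eq_rpow_re_of_pos hx]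
  simp

theorem mellin_decay (W : 𝓢(ℝ, ℂ)) {σ : ℝ} (hσ : 0 < σ) : ∃ C : ℝ, 0 ≤ C ∧ ∀ t : ℝ,
    ‖mellin (W : ℝ → ℂ) (σ + t * I)‖ ≤ C / (1 + t ^ 2) := by
  obtain ⟨C0, hC0, h0⟩ := mellin_bound W hσ
  set W1 := SchwartzMap.derivCLM ℂ ℂ W
  set W2 := SchwartzMap.derivCLM ℂ ℂ W1
  obtain ⟨C2, hC2, h2⟩ := mellin_bound W2 (σ := σ + 2) (by linarith)
  refine ⟨C0 + C2, by positivity, fun t => ?_⟩
  rw [le_div_iff₀ (by positivity), mul_add, mul_one]
  refine add_le_add (h0 t) ?_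
  have e1 := mellin_by_parts W (s := σ + t * I) (by simpa using hσ)
  have e2 := mellin_by_parts W1 (s := σ + t * I + 1) (by simp; linarith)
  have e3 : (σ + t * I) * (σ + t * I + 1) * mellin (W : ℝ → ℂ) (σ + t * I) =
      mellin (W2 : ℝ → ℂ) ((σ + 2 : ℝ) + t * I) := by
    have : ((σ + 2 : ℝ) : ℂ) + t * I = σ + t * I + 1 + 1 := by push_cast; ring
    rw [this]
    linear_combination (σ + t * I + 1) * e1 - e2
  have h3 := h2 t
  rw [← e3, norm_mul, norm_mul] at h3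
  have n1 : |t| ≤ ‖(σ : ℂ) + t * I‖ := by
    have := Complex.abs_im_le_norm ((σ : ℂ) + t * I)
    simpa using this
  have n2 : |t| ≤ ‖(σ : ℂ) + t * I + 1‖ := by
    have := Complex.abs_im_le_norm ((σ : ℂ) + t * I + 1)
    simpa using this
  have n3 : t ^ 2 ≤ ‖(σ : ℂ) + t * I‖ * ‖(σ : ℂ) + t * I + 1‖ := by
    rw [← sq_abs, sq]; exact mul_le_mul n1 n2 (abs_nonneg _) (norm_nonneg _)
  calc ‖mellin (W : ℝ → ℂ) (σ + t * I)‖ * t ^ 2
      ≤ ‖mellin (W : ℝ → ℂ) (σ + t * I)‖ * (‖(σ : ℂ) + t * I‖ * ‖(σ : ℂ) + t * I + 1‖) :=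
        mul_le_mul_of_nonneg_left n3 (norm_nonneg _)
    _ = ‖(σ : ℂ) + t * I‖ * ‖(σ : ℂ) + t * I + 1‖ * ‖mellin (W : ℝ → ℂ) (σ + t * I)‖ := by ring
    _ ≤ C2 := h3

theorem continuous_mellin_line (W : 𝓢(ℝ, ℂ)) {σ : ℝ} (hσ : 0 < σ) :
    Continuous fun t : ℝ => mellin (W : ℝ → ℂ) (σ + t * I) := by
  rw [continuous_iff_continuousAt]
  intro t
  have hd : DifferentiableAt ℂ (mellin (W : ℝ → ℂ)) (σ + t * I) :=
    mellin_differentiableAt_of_isBigO_rpow (a := σ + 1) (b := 0)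
      (W.continuous.locallyIntegrable.locallyIntegrableOn _)
      (schwartz_isBigO_top W _) (by simp) (schwartz_isBigO_zero W)
      (by simpa using hσ)
  have hc : ContinuousAt (fun t : ℝ => (σ : ℂ) + t * I) t := by fun_prop
  exact ContinuousAt.comp (f := fun t : ℝ => (σ : ℂ) + t * I) (g := mellin (W : ℝ → ℂ))
    hd.continuousAt hc

theorem mellin_verticalIntegrable (W : 𝓢(ℝ, ℂ)) {σ : ℝ} (hσ : 0 < σ) :
    VerticalIntegrable (mellin (W : ℝ → ℂ)) σ := by
  obtain ⟨C, hC, h⟩ := mellin_decay W hσ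
  refine Integrable.mono' (g := fun t : ℝ => C * (1 + t ^ 2)⁻¹)
    (integrable_inv_one_add_sq.const_mul C) (continuous_mellin_line W hσ).aestronglyMeasurable ?_
  filter_upwards with t
  rw [← div_eq_mul_inv]; exact h t

/-- Separation of variables: for `W` Schwartz on `ℝ` and `σ > 0` there is a density `H` with
quadratic decay such that `W (√y) = ∫ H t * y^{-(σ + it)} dt` for all `y > 0`. -/
theorem mellin_sep (W : 𝓢(ℝ, ℂ)) {s : ℝ} (hs : 0 < s) : ∃ (H : ℝ → ℂ) (C : ℝ), 0 ≤ C ∧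
    Continuous H ∧ (∀ t, ‖H t‖ ≤ C / (1 + t ^ 2)) ∧
    ∀ y : ℝ, 0 < y → W (Real.sqrt y) = ∫ t : ℝ, H t * (y : ℂ) ^ (-((s : ℂ) + t * I)) := by
  have h2s : 0 < 2 * s := by linarith
  obtain ⟨C, hC, h⟩ := mellin_decay W h2s
  refine ⟨fun t => (1 / Real.pi : ℝ) * mellin (W : ℝ → ℂ) ((2 * s : ℝ) + (2 * t : ℝ) * I),
    (1 / Real.pi) * C, by positivity, ?_, ?_, ?_⟩
  · have := (continuous_mellin_line W h2s).comp (continuous_const.mul continuous_id : Continuous
      fun t : ℝ => 2 * t)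
    exact continuous_const.mul this
  · intro t
    rw [norm_mul, Complex.norm_real, Real.norm_of_nonneg (by positivity), mul_div_assoc]
    refine mul_le_mul_of_nonneg_left ((h (2 * t)).trans ?_) (by positivity)
    refine div_le_div_of_nonneg_left hC (by positivity) ?_
    nlinarith [sq_nonneg t]
  · intro y hy
    have hx : 0 < Real.sqrt y := Real.sqrt_pos.2 hy
    have hinv := mellinInv_mellin_eq (2 * s) (W : ℝ → ℂ) hx
      (schwartz_mellinConvergent W (by simpa using h2s)) (mellin_verticalIntegrable W h2s)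
      W.continuous.continuousAt
    rw [← hinv, mellinInv]
    have hsub := Measure.integral_comp_mul_left (fun u : ℝ =>
      ((Real.sqrt y : ℝ) : ℂ) ^ (-(((2 * s : ℝ) : ℂ) + u * I)) •
        mellin (W : ℝ → ℂ) (((2 * s : ℝ) : ℂ) + u * I)) (2 : ℝ)
    have e1 : (∫ u : ℝ, ((Real.sqrt y : ℝ) : ℂ) ^ (-(((2 * s : ℝ) : ℂ) + u * I)) •
        mellin (W : ℝ → ℂ) (((2 * s : ℝ) : ℂ) + u * I)) =
        (2 : ℝ) • ∫ x : ℝ, ((Real.sqrt y : ℝ) : ℂ) ^ (-(((2 * s : ℝ) : ℂ) + (2 * x : ℝ) * I)) •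
        mellin (W : ℝ → ℂ) (((2 * s : ℝ) : ℂ) + (2 * x : ℝ) * I) := by
      rw [hsub, smul_smul]
      norm_num
    rw [e1, smul_smul, show (1 / (2 * Real.pi) * 2 : ℝ) = 1 / Real.pi by field_simp,
      ← integral_smul]
    refine integral_congr_ae (Eventually.of_forall fun t => ?_)
    have e2 : ((Real.sqrt y : ℝ) : ℂ) ^ (-(((2 * s : ℝ) : ℂ) + (2 * t : ℝ) * I)) =
        (y : ℂ) ^ (-((s : ℂ) + t * I)) := by
      have : (-(((2 * s : ℝ) : ℂ) + (2 * t : ℝ) * I)) = (2 : ℂ) * (-((s : ℂ) + t * I)) := by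
        push_cast; ring
      have h3 : ((Real.sqrt y : ℝ) : ℂ) ^ (2 : ℂ) = (y : ℂ) := by
        have : (2 : ℂ) = ((2 : ℕ) : ℂ) := by norm_num
        rw [this, Complex.cpow_natCast, ← Complex.ofReal_pow, Real.sq_sqrt hy.le]
      rw [this, Complex.cpow_def_of_ne_zero (by exact_mod_cast hx.ne'),
        Complex.cpow_def_of_ne_zero (by exact_mod_cast hy.ne')]
      congr 1
      have hl : (Real.log y : ℂ) = 2 * Real.log (Real.sqrt y) := by
        rw [Real.log_sqrt hy.le]; push_cast; ring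
      rw [← Complex.ofReal_log hx.le, ← Complex.ofReal_log hy.le, hl]
      ring
    simp only [Complex.real_smul, smul_eq_mul]
    rw [e2]; ring

end Vale.Agent.P006.V1
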