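import Vale.Agent.P006.V1.Cubes

/-!
P006, block V1: evaluation of the cube part of the dual sum.
-/

namespace Vale.Agent.P006.V1

open scoped BigOperators Classical
open Vale.Agent.P006

theorem squarefree_mul_of_coprime {a b : O} (h : IsCoprime a b) (ha : Squarefree a)
    (hb : Squarefree b) : Squarefree (a * b) :=
  squarefree_mul_iff.2 ⟨h.isRelPrime, ha, hb⟩

theorem dvd_cube_iff {W d ν : O} (hWd : IsCoprime W d) (sW : Squarefree W) (sd : Squarefree d) :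
    d * W ^ 2 ∣ ν ^ 3 ↔ d * W ∣ ν := by
  have hs : Squarefree (d * W) := squarefree_mul_of_coprime hWd.symm sd sW
  constructor
  · intro h
    have h1 : d * W ∣ ν ^ 3 := (Dvd.intro W (by ring)).trans h
    exact (hs.dvd_pow_iff_dvd three_ne_zero).1 h1
  · intro h
    exact (Dvd.intro (d ^ 2 * W) (by ring) : d * W ^ 2 ∣ (d * W) ^ 3).trans (pow_dvd_pow_of_dvd h 3)

/-- coefficient at a cube -/
theorem cc_cube {W d m : O} (hW : Primary W) (hd : Primary d) :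
    cc W d ((d * W * m) ^ 3) = (KU.phi W : ℂ) * KU.phi d := by
  have : NeZero W := ⟨hW.ne_zero⟩
  have : NeZero d := ⟨hd.ne_zero⟩
  have h0 : d * W ^ 2 ≠ 0 := mul_ne_zero hd.ne_zero (pow_ne_zero 2 hW.ne_zero)
  have h1 : (d * W * m) ^ 3 = (d ^ 2 * W * m ^ 3) * d * W ^ 2 := by ring
  rw [h1, cc_mul h0, E_cube ((hd.pow 2).mul hW), one_mul, ram_of_dvd, ram_of_dvd]
  · exact ⟨d * W * m ^ 3, by ring⟩
  · exact ⟨d ^ 2 * m ^ 3, by ring⟩

theorem ch_cube_eq {r x : O} : ch r (x ^ 3) = cop r x := by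
  by_cases h : IsCoprime x r
  · rw [ch_cube h, cop, if_pos h]
  · rw [cop, if_neg h, ch, sym_pow_left, map_pow, sym_eq_zero.2 h]; simp

theorem cop_mul_cop (r1 r2 x : O) : cop r1 x * cop r2 x = cop (r1 * r2) x := by
  simp only [cop, IsCoprime.mul_right_iff]
  by_cases h1 : IsCoprime x r1 <;> by_cases h2 : IsCoprime x r2 <;> simp [h1, h2]

theorem conj_cop (r x : O) : (starRingEnd ℂ) (cop r x) = cop r x := by
  rw [cop]; split_ifs <;> simp

theorem norm_cop_le (r x : O) : ‖cop r x‖ ≤ 1 := by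
  rw [cop]; split_ifs <;> simp

/-- the summand of the dual sum (without the coefficient `cc`) -/
noncomputable def ff (V : ℝ → ℂ) (T : ℝ) (r1 r2 κ : O) : ℂ :=
  (ch r1 κ * (starRingEnd ℂ) (ch r2 κ)) * PO.Vo V (T * N κ)

theorem norm_ff_le {V : ℝ → ℂ} {T : ℝ} (r1 r2 κ : O) :
    ‖ff V T r1 r2 κ‖ ≤ ‖PO.Vo V (T * N κ)‖ := by
  rw [ff, norm_mul, norm_mul, RCLike.norm_conj]
  have h1 := norm_ch_le r1 κ
  have h2 := norm_ch_le r2 κ
  have : ‖ch r1 κ‖ * ‖ch r2 κ‖ ≤ 1 := by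
    calc _ ≤ (1 : ℝ) * 1 := mul_le_mul h1 h2 (norm_nonneg _) zero_le_one
      _ = 1 := one_mul 1
  calc _ ≤ 1 * ‖PO.Vo V (T * N κ)‖ := mul_le_mul_of_nonneg_right this (norm_nonneg _)
    _ = _ := one_mul _

theorem ccff_bound {V : ℝ → ℂ} (hV : PO.Wt V) {T : ℝ} (hT : 0 < T) {W d : O} (hW : W ≠ 0)
    (hd : d ≠ 0) (r1 r2 : O) : ∃ C : ℝ, 0 ≤ C ∧ ∀ κ : O, κ ≠ 0 →
    ‖cc W d κ * ff V T r1 r2 κ‖ ≤ C * ((N κ : ℝ) ^ 2)⁻¹ := by
  obtain ⟨C, hC, h⟩ := Vo_bound hV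
  refine ⟨N W * N d * (C / T ^ 2), by positivity, fun κ hκ => ?_⟩
  rw [norm_mul, mul_assoc]
  exact mul_le_mul (norm_cc_le W d κ hW hd)
    ((norm_ff_le r1 r2 κ).trans (h T hT _ (by exact_mod_cast N_pos hκ))) (norm_nonneg _)
    (by positivity)

theorem ccff_summable {V : ℝ → ℂ} (hV : PO.Wt V) {T : ℝ} (hT : 0 < T) {W d : O} (hW : W ≠ 0)
    (hd : d ≠ 0) (r1 r2 : O) : Summable fun κ => cc W d κ * ff V T r1 r2 κ := by
  obtain ⟨C, -, h⟩ := ccff_bound hV hT hW hd r1 r2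
  exact summable_of_bound h

/-- the sum over `m ≠ 0` coprime to `r` -/
noncomputable def csum (V : ℝ → ℂ) (T : ℝ) (r : O) : ℂ :=
  ∑' m : O, if m = 0 then 0 else cop r m * PO.Vo V (T * (N m : ℝ) ^ 3)

theorem summable_cube_Vo {V : ℝ → ℂ} (hV : PO.Wt V) {T : ℝ} (hT : 0 < T) {g : O → ℂ} {C' : ℝ}
    (hC' : 0 ≤ C') (hg : ∀ m, ‖g m‖ ≤ C') :
    Summable fun m : O => if m = 0 then 0 else g m * PO.Vo V (T * (N m : ℝ) ^ 3) := by
  obtain ⟨C, hC, h⟩ := Vo_bound hV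
  refine summable_of_bound (C := C' * (C / T ^ 2)) fun m hm => ?_
  rw [if_neg hm, norm_mul, mul_assoc]
  have hN := one_le_N hm
  refine mul_le_mul (hg m) ((h T hT ((N m : ℝ) ^ 3) (by positivity)).trans ?_) (norm_nonneg _) hC'
  refine mul_le_mul_of_nonneg_left ?_ (by positivity)
  gcongr ?_⁻¹
  calc (N m : ℝ) ^ 2 ≤ (N m : ℝ) ^ 6 := pow_le_pow_right₀ hN (by norm_num)
    _ = ((N m : ℝ) ^ 3) ^ 2 := by ring

/-- **the cube part of the dual sum** -/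
theorem cube_part {V : ℝ → ℂ} (hV : PO.Wt V) {T : ℝ} (hT : 0 < T) {W d r1 r2 : O}
    (hW : Primary W) (hd : Primary d) (sW : Squarefree W) (sd : Squarefree d)
    (hWd : IsCoprime W (d * (r1 * r2))) (hdr : IsCoprime d (r1 * r2)) :
    ∑' κ : O, (if κ ≠ 0 ∧ ∃ ν : O, κ = ν ^ 3 then cc W d κ * ff V T r1 r2 κ else 0) =
      (1 / 3 : ℂ) * ((KU.phi W : ℂ) * KU.phi d) *
        csum V (T * ((N d : ℝ) ^ 3 * (N W : ℝ) ^ 3)) (r1 * r2) := by
  have hW0 := hW.ne_zero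
  have hd0 := hd.ne_zero
  have hdW0 : d * W ≠ 0 := mul_ne_zero hd0 hW0
  have hWd' : IsCoprime W d := IsCoprime.of_mul_right_left hWd
  have hWr : IsCoprime W (r1 * r2) := IsCoprime.of_mul_right_right hWd
  have hcop : IsCoprime (d * W) (r1 * r2) := hdr.mul_left hWr
  obtain ⟨C, hC, hb⟩ := ccff_bound hV hT hW0 hd0 r1 r2
  have hs : Summable fun ν : O => if ν = 0 then 0 else cc W d (ν ^ 3) * ff V T r1 r2 (ν ^ 3) := by
    refine summable_of_bound (C := C) fun ν hν => ?_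
    rw [if_neg hν]
    refine (hb _ (pow_ne_zero 3 hν)).trans (mul_le_mul_of_nonneg_left ?_ hC)
    have hN := one_le_N hν
    rw [N_pow]; push_cast
    gcongr ?_⁻¹
    calc (N ν : ℝ) ^ 2 ≤ (N ν : ℝ) ^ 6 := pow_le_pow_right₀ hN (by norm_num)
      _ = ((N ν : ℝ) ^ 3) ^ 2 := by ring
  rw [tsum_cubes (F := fun κ => cc W d κ * ff V T r1 r2 κ) hs, mul_assoc]
  congr 1
  have hsupp : Function.support (fun ν : O => if ν = 0 then 0 else
      cc W d (ν ^ 3) * ff V T r1 r2 (ν ^ 3)) ⊆ Set.range (fun m : O => d * W * m) := by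
    intro ν hν
    rw [Function.mem_support] at hν
    by_contra h2
    apply hν
    split_ifs with h0
    · rfl
    · rw [cc, if_neg, zero_mul]
      rw [dvd_cube_iff hWd' sW sd]
      rintro ⟨m, hm⟩
      exact h2 ⟨m, hm.symm⟩
  have hinj : Function.Injective (fun m : O => d * W * m) :=
    fun x y h => mul_left_cancel₀ hdW0 h
  rw [← hinj.tsum_eq hsupp, csum, ← tsum_mul_left]
  refine tsum_congr fun m => ?_
  by_cases hm : m = 0
  · simp [hm]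
  · rw [if_neg hm, if_neg (mul_ne_zero hdW0 hm), cc_cube hW hd, ff, ch_cube_eq, ch_cube_eq,
      conj_cop, cop_mul_cop, cop_mul hcop, N_pow, N_mul, N_mul]
    push_cast
    rw [show T * (N d * N W * N m : ℝ) ^ 3 = T * ((N d : ℝ) ^ 3 * (N W : ℝ) ^ 3) * (N m : ℝ) ^ 3 by
      ring]

end Vale.Agent.P006.V1
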