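import Vale.Agent.P006.V1.Kappa
import Vale.Agent.P006.H357.Alg

/-!
P006, block V1: the contribution of the cubes to the dual sum.
-/

namespace Vale.Agent.P006.V1

open scoped BigOperators Classical
open Vale.Agent.P006

/-! ### summability tools -/

theorem one_le_N {ν : O} (h : ν ≠ 0) : (1 : ℝ) ≤ N ν := by exact_mod_cast N_pos h

theorem summable_of_bound {E : Type*} [NormedAddCommGroup E] [CompleteSpace E] {H : O → E}
    {C : ℝ} (h : ∀ ν : O, ν ≠ 0 → ‖H ν‖ ≤ C * ((N ν : ℝ) ^ 2)⁻¹) : Summable H := by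
  have h1 := (HB.summable_N_rpow (s := 2) (by norm_num)).mul_left C
  refine Summable.of_norm_bounded_eventually h1 ?_
  rw [Filter.eventually_cofinite]
  refine (Set.finite_singleton (0 : O)).subset fun ν hν => ?_
  by_contra hne
  apply hν
  refine (h ν hne).trans (le_of_eq ?_)
  rw [Real.rpow_neg (Nat.cast_nonneg _)]
  norm_num

theorem Vo_bound {V : ℝ → ℂ} (hV : PO.Wt V) : ∃ C : ℝ, 0 ≤ C ∧ ∀ T : ℝ, 0 < T → ∀ x : ℝ, 0 < x →
    ‖PO.Vo V (T * x)‖ ≤ C / T ^ 2 * (x ^ 2)⁻¹ := by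
  obtain ⟨C, h0, hC⟩ := hV.Vo_decay 2
  refine ⟨C, h0, fun T hT x hx => ?_⟩
  have h1 := hC (T * x) (by positivity)
  have h2 : (T * x) ^ 2 * ‖PO.Vo V (T * x)‖ ≤ C := by
    refine le_trans ?_ h1
    gcongr
    linarith
  rw [div_mul_eq_mul_div, le_div_iff₀ (by positivity), ← div_eq_mul_inv, le_div_iff₀ (by positivity)]
  linarith [h2]

theorem Vo_bound_one {V : ℝ → ℂ} (hV : PO.Wt V) : ∃ C : ℝ, 0 ≤ C ∧ ∀ x : ℝ, 0 ≤ x →
    ‖PO.Vo V x‖ ≤ C := by
  obtain ⟨C, h0, hC⟩ := hV.Vo_decay 0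
  exact ⟨C, h0, fun x hx => by simpa using hC x hx⟩

/-! ### sums over nonzero cubes -/

theorem cube_eq_iff {x y : O} (hy : y ≠ 0) : x ^ 3 = y ^ 3 ↔
    x = y ∨ x = om * y ∨ x = om ^ 2 * y := by
  have h1 : x ^ 3 - y ^ 3 = (x - y) * (x - om * y) * (x - om ^ 2 * y) := by
    have h2 := one_add_om
    have h3 := om_cube
    linear_combination (x ^ 2 * y - x * y ^ 2 * om) * h2 + y ^ 3 * h3
  rw [← sub_eq_zero, h1, mul_eq_zero, mul_eq_zero, sub_eq_zero, sub_eq_zero, sub_eq_zero, or_assoc]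

theorem card_cube_fiber {y : O} (hy : y ≠ 0) : Nat.card {x : O // x ^ 3 = y ^ 3} = 3 := by
  have h1 : {x : O | x ^ 3 = y ^ 3} = (({y, om * y, om ^ 2 * y} : Finset O) : Set O) := by
    ext x
    simp only [Set.mem_ofPred_eq, Finset.coe_insert, Finset.coe_singleton, Set.mem_insert_iff,
      Set.mem_singleton_iff]
    exact cube_eq_iff hy
  have h2 : Nat.card {x : O // x ^ 3 = y ^ 3} =
      Nat.card (({y, om * y, om ^ 2 * y} : Finset O) : Set O) := by
    rw [← h1]; rfl
  rw [h2, Nat.card_eq_card_toFinset, Finset.toFinset_coe, Finset.card_eq_three]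
  refine ⟨y, om * y, om ^ 2 * y, ?_, ?_, ?_, rfl⟩
  · intro h
    have : (1 - om) * y = 0 := by linear_combination h
    rcases mul_eq_zero.1 this with h1 | h1
    · exact absurd h1 (by decide)
    · exact hy h1
  · intro h
    have : (1 - om ^ 2) * y = 0 := by linear_combination h
    rcases mul_eq_zero.1 this with h1 | h1
    · exact absurd h1 (by decide)
    · exact hy h1
  · intro h
    have : (om - om ^ 2) * y = 0 := by linear_combination h
    rcases mul_eq_zero.1 this with h1 | h1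
    · exact absurd h1 (by decide)
    · exact hy h1

/-- sums over nonzero cubes -/
theorem tsum_cubes {F : O → ℂ} (hs : Summable fun ν : O => if ν = 0 then 0 else F (ν ^ 3)) :
    ∑' κ : O, (if κ ≠ 0 ∧ ∃ ν : O, κ = ν ^ 3 then F κ else 0) =
      (1 / 3 : ℂ) * ∑' ν : O, if ν = 0 then 0 else F (ν ^ 3) := by
  set G : O → ℂ := fun ν => if ν = 0 then 0 else F (ν ^ 3) with hG
  have h1 : ∑' ν : O, G ν = ∑' κ : O, ∑' x : {x : O // x ^ 3 = κ}, G x := by
    have e := Equiv.sigmaFiberEquiv (fun x : O => x ^ 3)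
    have hs2 : Summable (G ∘ (Equiv.sigmaFiberEquiv (fun x : O => x ^ 3))) :=
      (Equiv.summable_iff _).2 hs
    rw [← (Equiv.sigmaFiberEquiv (fun x : O => x ^ 3)).tsum_eq]
    exact hs2.tsum_sigma
  rw [h1, ← tsum_mul_left]
  refine tsum_congr fun κ => ?_
  split_ifs with h
  · obtain ⟨h0, ν, rfl⟩ := h
    have hν : ν ≠ 0 := by rintro rfl; exact h0 (by simp)
    have h2 : ∀ x : {x : O // x ^ 3 = ν ^ 3}, G x = F (ν ^ 3) := by
      rintro ⟨x, hx⟩
      have hx0 : x ≠ 0 := by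
        rintro rfl
        rw [zero_pow three_ne_zero] at hx
        exact h0 hx.symm
      simp only [hG, if_neg hx0, hx]
    rw [tsum_congr h2, tsum_const, card_cube_fiber hν, nsmul_eq_mul]
    push_cast; ring
  · have h2 : ∀ x : {x : O // x ^ 3 = κ}, G x = 0 := by
      rintro ⟨x, hx⟩
      have hx0 : x = 0 := by
        by_contra hx0
        exact h ⟨by rw [← hx]; exact pow_ne_zero 3 hx0, x, hx.symm⟩
      simp [hG, hx0]
    rw [tsum_congr h2, tsum_zero, mul_zero]

/-! ### the phase on cubes -/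

theorem E_sq3_three_unit : E (sq3 * 3) 1 = 1 := by
  rw [E]
  have h : TrC (toC 1 / toC (sq3 * 3)) = 0 := by
    have h1 : (toC (sq3 * 3)).re = 0 := by
      rw [toC_re]
      have h2 : (sq3 * 3 : O).re = 3 := by decide
      have h3 : (sq3 * 3 : O).im = 6 := by decide
      rw [h2, h3]; norm_num
    rw [TrC, map_one, one_div, Complex.inv_re, h1]; simp
  rw [h, e_zero]

theorem E_sq3_three_primary {x : O} (hx : Primary x) : E (sq3 * 3) x = 1 := by
  obtain ⟨t, ht⟩ := hx
  have h1 : x = 1 + 3 * t := by linear_combination ht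
  rw [h1, E_add, E_sq3_three_unit, one_mul, mul_comm sq3 3, E_mul_cancel three_ne_zero', E_sq3]

theorem E_neg' (m x : O) (h : E m x = 1) : E m (-x) = 1 := by rw [E_neg, h, map_one]

theorem sq3_three_eq : sq3 * 3 = lam ^ 3 * (-1) := by decide

theorem E_cube {c : O} (hc : Primary c) (m : O) : E (sq3 * 3) (c * m ^ 3) = 1 := by
  by_cases hm : lam ∣ m
  · obtain ⟨m', rfl⟩ := hm
    have h1 : c * (lam * m') ^ 3 = lam ^ 3 * (c * m' ^ 3) := by ring
    have hl : lam ^ 3 ≠ 0 := by decide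
    rw [h1, sq3_three_eq, E_mul_cancel hl, E]
    have h2 : toC (c * m' ^ 3) / toC (-1) = toC (-(c * m' ^ 3)) := by
      rw [map_neg, map_neg, map_one, div_neg, div_one]
    rw [h2, e_TrC_toC]
  · obtain ⟨u, hu, hp⟩ := exists_unit_mul_primary hm
    have h1 : Primary (c * (u * m) ^ 3) := hc.mul (hp.pow 3)
    have h2 := E_sq3_three_primary h1
    have h3 : u ^ 3 = 1 ∨ u ^ 3 = -1 := by
      rcases isUnit_cases hu with h | h | h | h | h | h <;> subst h <;> decide
    rcases h3 with h3 | h3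
    · have : c * m ^ 3 = c * (u * m) ^ 3 := by rw [mul_pow, h3, one_mul]
      rw [this, h2]
    · have : c * m ^ 3 = -(c * (u * m) ^ 3) := by rw [mul_pow, h3]; ring
      rw [this]
      exact E_neg' _ _ h2

end Vale.Agent.P006.V1
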