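import Vale.Agent.P006.V1.Moebius

/-!
P006, block V1: expansion of the square, splitting of the dual sum.
-/

namespace Vale.Agent.P006.V1

open scoped BigOperators Classical
open Vale.Agent.P006

theorem summable_V {V : ℝ → ℂ} (hV : PO.Wt V) {B : ℝ} (hB : 0 < B) :
    Summable fun b : O => V (N b / B) := by
  have h := PO.dec_summable_O (hV.scale hB).rad_dec
  refine h.congr fun b => ?_
  rw [PO.rad, ← N_eq_sq_norm]

theorem norm_prim_le (b : O) : ‖prim b‖ ≤ 1 := by
  rw [prim]; split_ifs <;> simp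

theorem summable_mul_V {V : ℝ → ℂ} (hV : PO.Wt V) {B : ℝ} (hB : 0 < B) {g : O → ℂ} {C : ℝ}
    (hg : ∀ b, ‖g b‖ ≤ C) : Summable fun b : O => g b * V (N b / B) := by
  refine Summable.of_norm_bounded ((summable_V hV hB).norm.mul_left C) fun b => ?_
  rw [norm_mul]
  exact mul_le_mul_of_nonneg_right (hg b) (norm_nonneg _)

/-- the sum over `b` attached to a pair -/
noncomputable def pairSum (V : ℝ → ℂ) (B : ℝ) (W a1 a2 : O) : ℂ :=
  gt 1 a1 * (starRingEnd ℂ) (gt 1 a2) *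
    ∑' b : O, prim b * cop W b * ((starRingEnd ℂ) (ch a1 b) * ch a2 b) * V (N b / B)

/-- the first dispersion sum -/
noncomputable def S1 (V : ℝ → ℂ) (B : ℝ) (W : O) (s : Finset O) (α : O → ℂ) : ℂ :=
  ∑' b : O, prim b * cop W b * V (N b / B) *
    ((‖∑ a ∈ s, α a * gt 1 a * (starRingEnd ℂ) (ch a b)‖ ^ 2 : ℝ) : ℂ)

theorem norm_sq_sum (s : Finset O) (x : O → ℂ) :
    ((‖∑ a ∈ s, x a‖ ^ 2 : ℝ) : ℂ) = ∑ a1 ∈ s, ∑ a2 ∈ s, x a1 * (starRingEnd ℂ) (x a2) := by
  rw [← Complex.normSq_eq_norm_sq, ← Complex.mul_conj, map_sum, Finset.sum_mul_sum]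

theorem S1_expand {V : ℝ → ℂ} (hV : PO.Wt V) {B : ℝ} (hB : 0 < B) (W : O) (s : Finset O)
    (α : O → ℂ) :
    S1 V B W s α = ∑ a1 ∈ s, ∑ a2 ∈ s, α a1 * (starRingEnd ℂ) (α a2) * pairSum V B W a1 a2 := by
  have h1 : ∀ b : O, prim b * cop W b * V (N b / B) *
      ((‖∑ a ∈ s, α a * gt 1 a * (starRingEnd ℂ) (ch a b)‖ ^ 2 : ℝ) : ℂ) =
      ∑ a1 ∈ s, ∑ a2 ∈ s, α a1 * (starRingEnd ℂ) (α a2) * (gt 1 a1 * (starRingEnd ℂ) (gt 1 a2) *
        (prim b * cop W b * ((starRingEnd ℂ) (ch a1 b) * ch a2 b) * V (N b / B))) := by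
    intro b
    rw [norm_sq_sum, Finset.mul_sum]
    refine Finset.sum_congr rfl fun a1 _ => ?_
    rw [Finset.mul_sum]
    refine Finset.sum_congr rfl fun a2 _ => ?_
    rw [map_mul, map_mul, Complex.conj_conj]
    ring
  have h2 : ∀ a1 a2 : O, Summable fun b : O =>
      prim b * cop W b * ((starRingEnd ℂ) (ch a1 b) * ch a2 b) * V (N b / B) := by
    intro a1 a2
    refine summable_mul_V hV hB (C := 1) fun b => ?_
    rw [norm_mul, norm_mul, norm_mul, RCLike.norm_conj]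
    have e1 := norm_prim_le b
    have e2 := norm_cop_le W b
    have e3 := norm_ch_le a1 b
    have e4 := norm_ch_le a2 b
    have e5 : ‖prim b‖ * ‖cop W b‖ ≤ 1 * 1 := mul_le_mul e1 e2 (norm_nonneg _) zero_le_one
    have e6 : ‖ch a1 b‖ * ‖ch a2 b‖ ≤ 1 * 1 := mul_le_mul e3 e4 (norm_nonneg _) zero_le_one
    have e7 := mul_le_mul e5 e6 (by positivity) (by norm_num)
    simpa using e7
  rw [S1, tsum_congr h1, Summable.tsum_finsetSum]
  · refine Finset.sum_congr rfl fun a1 _ => ?_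
    rw [Summable.tsum_finsetSum]
    · refine Finset.sum_congr rfl fun a2 _ => ?_
      rw [tsum_mul_left, tsum_mul_left, pairSum]
    · intro a2 _
      exact ((h2 a1 a2).mul_left _).mul_left _
  · intro a1 _
    exact summable_sum fun a2 _ => ((h2 a1 a2).mul_left _).mul_left _

/-- the scale `T` of the dual sum attached to `x = N(a1) N(a2)` -/
noncomputable def Tn (B : ℝ) (W : O) (x : ℝ) : ℝ := B / (27 * (N W : ℝ) ^ 3 * x)

/-- the prefactor attached to `x = N(a1) N(a2)` -/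
noncomputable def pre (B : ℝ) (W : O) (x : ℝ) : ℝ :=
  2 * B / (9 * Real.sqrt 3 * N W * Real.sqrt x)

theorem pairSum_eq {V : ℝ → ℂ} (hV : PO.Wt V) {B : ℝ} (hB : 0 < B)
    {W d r1 r2 : O} (hW : Primary W) (hd : Primary d)
    (h1 : Primary r1) (h2 : Primary r2) (sd : Squarefree d) (s1 : Squarefree r1)
    (s2 : Squarefree r2)
    (hWd : IsCoprime W (d * (r1 * r2))) (hdr : IsCoprime d (r1 * r2)) (hr : IsCoprime r1 r2) :
    pairSum V B W (d * r1) (d * r2) = (pre B W (N (d * r1) * N (d * r2)) : ℂ) *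
      ∑' κ : O, cc W d κ * ff V (Tn B W (N (d * r1) * N (d * r2))) r1 r2 κ := by
  have h0 : d * W ^ 2 ≠ 0 := mul_ne_zero hd.ne_zero (pow_ne_zero 2 hW.ne_zero)
  rw [← tsum_kappa h0]
  have key := pair_exact hV hB hW hd h1 h2 sd s1 s2 hWd hdr hr
  rw [pairSum]
  have e1 : ∀ b : O, prim b * cop W b * ((starRingEnd ℂ) (ch (d * r1) b) * ch (d * r2) b) *
      V (N b / B) = prim b * theta W d r1 r2 b * V (N b / B) := by
    intro b
    rw [theta_eq hd.ne_zero h1.ne_zero h2.ne_zero]; ring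
  rw [tsum_congr e1, key]
  have pW : (0 : ℝ) < N W := by exact_mod_cast N_pos hW.ne_zero
  have pd : (0 : ℝ) < N d := by exact_mod_cast N_pos hd.ne_zero
  have p1 : (0 : ℝ) < N r1 := by exact_mod_cast N_pos h1.ne_zero
  have p2 : (0 : ℝ) < N r2 := by exact_mod_cast N_pos h2.ne_zero
  congr 1
  · rw [pre]
    congr 1
    have : Real.sqrt ((N (d * r1) : ℝ) * N (d * r2)) = N d * Real.sqrt (N (r1 * r2)) := by
      rw [N_mul, N_mul, N_mul]
      push_cast
      have : (N d * N r1 * (N d * N r2) : ℝ) = (N d : ℝ) ^ 2 * (N r1 * N r2) := by ring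
      rw [this, Real.sqrt_mul (by positivity), Real.sqrt_sq pd.le]
    rw [this]; ring
  · refine tsum_congr fun k => ?_
    rw [ff, Tn]
    have : B * N k / (27 * N (W * (d * (r1 * r2)))) =
        B / (27 * (N W : ℝ) ^ 3 * (N (d * r1) * N (d * r2))) * N (k * d * W ^ 2) := by
      simp only [N_mul, N_pow]
      push_cast
      field_simp
    rw [this]
    ring

theorem summable_ite {F : O → ℂ} (hF : Summable F) (P : O → Prop) [DecidablePred P] :
    Summable fun κ : O => if P κ then F κ else 0 := by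
  refine Summable.of_norm_bounded hF.norm fun κ => ?_
  split_ifs
  · exact le_rfl
  · rw [norm_zero]; exact norm_nonneg _

theorem summable_ite_not {F : O → ℂ} (hF : Summable F) (P : O → Prop) [DecidablePred P] :
    Summable fun κ : O => if P κ then 0 else F κ := by
  refine Summable.of_norm_bounded hF.norm fun κ => ?_
  split_ifs
  · rw [norm_zero]; exact norm_nonneg _
  · exact le_rfl

/-- splitting of a sum over `O` into `0`, nonzero cubes, non-cubes -/
theorem tsum_split {F : O → ℂ} (hF : Summable F) :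
    ∑' κ : O, F κ = F 0 + ∑' κ : O, (if κ ≠ 0 ∧ ∃ ν : O, κ = ν ^ 3 then F κ else 0) +
      ∑' κ : O, (if ∃ ν : O, κ = ν ^ 3 then 0 else F κ) := by
  have s1 := summable_ite hF (fun κ => κ = 0)
  have s2 := summable_ite hF (fun κ => κ ≠ 0 ∧ ∃ ν : O, κ = ν ^ 3)
  have s3 := summable_ite_not hF (fun κ => ∃ ν : O, κ = ν ^ 3)
  have h0 : ∑' κ : O, (if κ = 0 then F κ else 0) = F 0 := by
    rw [tsum_ite_eq]
  rw [← h0, ← s1.tsum_add s2, ← (s1.add s2).tsum_add s3]
  refine tsum_congr fun κ => ?_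
  by_cases h1 : κ = 0
  · have h2 : ∃ ν : O, κ = ν ^ 3 := ⟨0, by rw [h1]; ring⟩
    simp only [h1, if_true, ne_eq, not_true_eq_false, false_and, if_false, add_zero]
    rw [if_pos ⟨0, by ring⟩, add_zero]
  · by_cases h2 : ∃ ν : O, κ = ν ^ 3
    · simp only [h1, h2, if_false, ne_eq, not_false_eq_true, true_and, if_true, zero_add, add_zero]
    · simp only [h1, h2, if_false, ne_eq, not_false_eq_true, true_and, zero_add]

end Vale.Agent.P006.V1
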