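import Vale.Agent.P006.V1.Pair
import Vale.Agent.P006.CR.GaussSum
import Vale.Agent.P006.H485.Radial

/-!
P006, block V1: instantiation of the inputs (reciprocity, Gauss sums, Poisson summation).
-/

namespace Vale.Agent.P006.V1

open scoped BigOperators Classical SchwartzMap
open Vale.Agent.P006

theorem gs_eq_CR (r k : O) : V1.gs r k = Vale.Agent.P006.gs k r := by
  rw [V1.gs, rsum, Vale.Agent.P006.gs]
  refine finsum_congr fun x => ?_
  rw [ch, E_eq_psi, map_mul, rs_out, mul_comm (rs r k)]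
  congr 1
  have h : x = rs r (Quotient.out x) := (rs_out x).symm
  conv_rhs => rw [h]
  rw [chi_rs]

theorem cubicInput : CubicInput where
  recip := fun _ _ ha hb => Vale.Agent.P006.recip ha hb
  gs_eq := fun r k hr hs => by
    rw [gs_eq_CR, gs_eq_CR]
    by_cases h : IsCoprime k r
    · rw [gs_twist_one hr.ne_zero h, ch]
    · rw [gs_eq_zero_of_not_coprime hr hs h, ch, sym_eq_zero.2 h, map_zero, map_zero, zero_mul]
  norm_gs := fun r hr hs => by
    rw [gs_eq_CR]
    exact norm_gs_sq hr hs isCoprime_one_left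

theorem gn_eq_gt (a : O) : gn a = gt 1 a := by rw [gn, gt, gs_eq_CR]

theorem FT_eq_PO (f : ℂ → ℂ) (y : ℂ) : FT f y = PO.FT f y := by
  rw [FT, PO.FT]
  refine MeasureTheory.integral_congr_ae (Filter.Eventually.of_forall fun z => ?_)
  simp only [PO.eT, TrC_neg]
  rw [mul_comm]

theorem Per.toPO {m : O} {h : O → ℂ} (hh : Per m h) : PO.Per m h :=
  fun x y => hh _ _ ⟨y, by ring⟩

/-- the canonical residue system -/
noncomputable def ressys (m : O) [NeZero m] : Finset O :=
  Finset.univ.image (fun x : Rs m => (Quotient.out x : O))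

theorem out_injective (m : O) : Function.Injective (fun x : Rs m => (Quotient.out x : O)) := by
  intro x y hxy
  have h : rs m (Quotient.out x) = rs m (Quotient.out y) := congrArg (rs m) hxy
  rwa [rs_out, rs_out] at h

theorem ressys_isResSys (m : O) [NeZero m] : PO.IsResSys m (ressys m) := by
  intro x
  refine ⟨Quotient.out (rs m x), ⟨?_, ?_⟩, ?_⟩
  · exact Finset.mem_image_of_mem _ (Finset.mem_univ _)
  · rw [← rs_eq, rs_out]
  · rintro a ⟨ha, hxa⟩
    obtain ⟨y, -, rfl⟩ := Finset.mem_image.1 ha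
    have : rs m x = y := by rw [rs_eq.2 hxa, rs_out]
    rw [this]

theorem GS_eq_rsum (m : O) [NeZero m] (ψ : O → ℂ) (k : O) :
    PO.GS m (ressys m) ψ k = rsum m (fun a => ψ a * E (sq3 * m) (a * k)) := by
  rw [PO.GS, ressys, Finset.sum_image (fun x _ y _ h => out_injective m h), rsum_eq_sum]
  refine Finset.sum_congr rfl fun x _ => ?_
  rw [PO.eT, E]
  congr 3
  rw [map_mul, map_mul, mul_div_assoc]
  rfl

theorem poissonInput : PoissonInput := by
  intro f m ψ hm hψ
  have : NeZero m := ⟨hm⟩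
  have h := PO.poisson_per (f := f) f.continuous (PO.schwartz_dec f) (PO.FT_schwartz_dec f) hm
    (ressys_isResSys m) hψ.toPO
  rw [← h.tsum_eq, ← tsum_mul_left]
  refine tsum_congr fun k => ?_
  rw [GS_eq_rsum, ← FT_eq_PO, map_mul]
  push_cast
  rfl

theorem Vo_radS {V : ℝ → ℂ} (hV : PO.Wt V) (t : ℝ) : Vo hV.radS t = PO.Vo V t := by
  rw [Vo, WT_apply, FT_eq_PO, PO.Vo, PO.Wt.coe_radS]

theorem radS_rot {V : ℝ → ℂ} (hV : PO.Wt V) (u z : ℂ) (hu : ‖u‖ = 1) :
    hV.radS (u * z) = hV.radS z := by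
  rw [PO.Wt.radS_apply, PO.Wt.radS_apply, PO.rad, PO.rad, norm_mul, hu, one_mul]

/-- **The exact pair formula.** -/
theorem pair_exact {V : ℝ → ℂ} (hV : PO.Wt V) {B : ℝ} (hB : 0 < B)
    {W d r1 r2 : O} (hW : Primary W) (hd : Primary d)
    (h1 : Primary r1) (h2 : Primary r2) (sd : Squarefree d) (s1 : Squarefree r1)
    (s2 : Squarefree r2)
    (hWd : IsCoprime W (d * (r1 * r2))) (hdr : IsCoprime d (r1 * r2)) (hr : IsCoprime r1 r2) :
    gt 1 (d * r1) * (starRingEnd ℂ) (gt 1 (d * r2)) *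
      ∑' b : O, prim b * theta W d r1 r2 b * V (N b / B) =
    ((2 * B / (9 * Real.sqrt 3 * N W * N d * Real.sqrt (N (r1 * r2))) : ℝ) : ℂ) *
      ∑' k : O, E (sq3 * 3) k * ram W k * ram d k *
        (ch r1 (k * d * W ^ 2) * (starRingEnd ℂ) (ch r2 (k * d * W ^ 2))) *
        PO.Vo V (B * N k / (27 * N (W * (d * (r1 * r2))))) := by
  have h := pair_formula poissonInput cubicInput hV.radS (radS_rot hV) hB hW hd h1 h2 sd s1 s2
    hWd hdr hr
  rw [gn_eq_gt, gn_eq_gt] at h
  have e1 : ∀ b : O, prim b * theta W d r1 r2 b *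
      hV.radS ((((Real.sqrt B)⁻¹ : ℝ) : ℂ) * toC b) = prim b * theta W d r1 r2 b * V (N b / B) := by
    intro b
    rw [PO.Wt.radS_apply, PO.rad, norm_mul, Complex.norm_real, mul_pow, ← N_eq_sq_norm,
      Real.norm_of_nonneg (inv_nonneg.2 (Real.sqrt_nonneg _)), inv_pow, Real.sq_sqrt hB.le,
      inv_mul_eq_div]
  simp only [e1, Vo_radS] at h
  exact h

end Vale.Agent.P006.V1
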