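import Vale.Agent.P006.V1.Inst
import Vale.Agent.P006.KU.Phi

/-!
P006, block V1: the dual sum re-indexed by `κ = k d W²`; size of its coefficients.
-/

namespace Vale.Agent.P006.V1

open scoped BigOperators Classical
open Vale.Agent.P006

theorem norm_ram_le (m k : O) [NeZero m] : ‖ram m k‖ ≤ N m := by
  rw [ram, rsum_eq_sum]
  refine (norm_sum_le _ _).trans ?_
  have h : ∀ x ∈ (Finset.univ : Finset (Rs m)),
      ‖cop m (Quotient.out x) * E m (Quotient.out x * k)‖ ≤ 1 := by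
    intro x _
    rw [norm_mul, norm_E, mul_one, cop]
    split_ifs <;> simp
  refine (Finset.sum_le_card_nsmul _ _ 1 h).trans ?_
  rw [Finset.card_univ, fcard_Rs]; simp

/-- the coefficient of `κ = k d W²` in the dual sum -/
noncomputable def cc (W d κ : O) : ℂ :=
  if d * W ^ 2 ∣ κ then
    E (sq3 * 3) (κ / (d * W ^ 2)) * ram W (κ / (d * W ^ 2)) * ram d (κ / (d * W ^ 2))
  else 0

theorem cc_mul {W d : O} (h : d * W ^ 2 ≠ 0) (k : O) :
    cc W d (k * d * W ^ 2) = E (sq3 * 3) k * ram W k * ram d k := by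
  have h1 : k * d * W ^ 2 = (d * W ^ 2) * k := by ring
  have h2 : k * d * W ^ 2 / (d * W ^ 2) = k := by
    rw [h1]; exact mul_div_cancel_left₀ k h
  rw [cc, if_pos ⟨k, h1⟩, h2]

theorem cc_eq_zero {W d κ : O} (h : ¬ d ∣ κ) : cc W d κ = 0 := by
  rw [cc, if_neg]
  intro h1
  exact h ((Dvd.intro _ rfl).trans h1)

theorem norm_cc_le (W d κ : O) (hW : W ≠ 0) (hd : d ≠ 0) : ‖cc W d κ‖ ≤ N W * N d := by
  have : NeZero W := ⟨hW⟩
  have : NeZero d := ⟨hd⟩
  rw [cc]
  split_ifs
  · rw [norm_mul, norm_mul, norm_E, one_mul]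
    exact mul_le_mul (norm_ram_le _ _) (norm_ram_le _ _) (norm_nonneg _) (by positivity)
  · rw [norm_zero]; positivity

theorem injective_kappa {W d : O} (h : d * W ^ 2 ≠ 0) :
    Function.Injective (fun k : O => k * d * W ^ 2) := by
  intro x y hxy
  simp only [mul_assoc] at hxy
  exact mul_right_cancel₀ h hxy

theorem tsum_kappa {W d : O} (h : d * W ^ 2 ≠ 0) (F : O → ℂ) :
    ∑' k : O, E (sq3 * 3) k * ram W k * ram d k * F (k * d * W ^ 2) =
      ∑' κ : O, cc W d κ * F κ := by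
  have h1 : Function.support (fun κ : O => cc W d κ * F κ) ⊆
      Set.range (fun k : O => k * d * W ^ 2) := by
    intro κ hκ
    rw [Function.mem_support] at hκ
    by_contra h2
    apply hκ
    rw [cc, if_neg, zero_mul]
    rintro ⟨k, hk⟩
    exact h2 ⟨k, by simp only [hk]; ring⟩
  rw [← (injective_kappa h).tsum_eq h1]
  exact tsum_congr fun k => by rw [cc_mul h]

theorem rsum_cop (m : O) [NeZero m] : rsum m (cop m) = (KU.phi m : ℂ) := by
  rw [rsum_eq_sum]
  have h1 : ∀ x : Rs m, cop m (Quotient.out x) = if IsUnit x then 1 else 0 := by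
    intro x
    have : IsCoprime (Quotient.out x) m ↔ IsUnit x := by rw [← isUnit_rs_iff, rs_out]
    simp only [cop, this]
  have e : (Rs m)ˣ ≃ {x : Rs m // IsUnit x} :=
    Equiv.ofBijective (fun u => ⟨u, u.isUnit⟩)
      ⟨fun u v h => Units.ext (congrArg Subtype.val h), fun ⟨x, hx⟩ => ⟨hx.unit, rfl⟩⟩
  rw [Finset.sum_congr rfl fun x _ => h1 x, Finset.sum_boole]
  congr 1
  rw [KU.phi, Nat.card_congr e, Nat.card_eq_fintype_card, Fintype.card_subtype]

theorem ram_of_dvd {m k : O} [NeZero m] (h : m ∣ k) : ram m k = (KU.phi m : ℂ) := by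
  rw [← rsum_cop, ram]
  refine rsum_congr fun x => ?_
  have h1 : E m (x * k) = 1 := by
    obtain ⟨c, rfl⟩ := h
    have h2 := E_per m 1 (x * (m * c)) 0 ⟨x * c, by ring⟩
    simp only [mul_one] at h2
    rw [h2, E_zero]
  rw [h1, mul_one]

end Vale.Agent.P006.V1
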