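import Vale.Agent.P006.V1.Expand

/-!
P006, block V1: diagonal and main term of the first dispersion sum.
-/

namespace Vale.Agent.P006.V1

open scoped BigOperators Classical
open Vale.Agent.P006

/-! ### the primary gcd -/

/-- the primary greatest common divisor of two primary elements -/
noncomputable def gd (a b : O) : O :=
  if h : Primary a ∧ Primary b then (HB.exists_pgcd h.1 h.2).choose else 1

theorem gd_spec {a b : O} (ha : Primary a) (hb : Primary b) :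
    ∃ r1 r2 : O, Primary (gd a b) ∧ Primary r1 ∧ Primary r2 ∧ a = gd a b * r1 ∧ b = gd a b * r2 ∧
      IsCoprime r1 r2 := by
  have h : Primary a ∧ Primary b := ⟨ha, hb⟩
  have h1 := (HB.exists_pgcd h.1 h.2).choose_spec
  rw [gd, dif_pos h]
  obtain ⟨r1, r2, h2, h3, h4, h5, h6, h7⟩ := h1
  exact ⟨r1, r2, h2, h3, h4, h5, h6, h7⟩

theorem div_eq_of {a d r : O} (hd : d ≠ 0) (h : a = d * r) : a / d = r := by
  rw [h]; exact mul_div_cancel_left₀ r hd

structure PairData (W a1 a2 : O) : Prop where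
  pd : Primary (gd a1 a2)
  p1 : Primary (a1 / gd a1 a2)
  p2 : Primary (a2 / gd a1 a2)
  e1 : gd a1 a2 * (a1 / gd a1 a2) = a1
  e2 : gd a1 a2 * (a2 / gd a1 a2) = a2
  cop : IsCoprime (a1 / gd a1 a2) (a2 / gd a1 a2)
  sd : Squarefree (gd a1 a2)
  s1 : Squarefree (a1 / gd a1 a2)
  s2 : Squarefree (a2 / gd a1 a2)
  hWd : IsCoprime W (gd a1 a2 * (a1 / gd a1 a2 * (a2 / gd a1 a2)))
  hdr : IsCoprime (gd a1 a2) (a1 / gd a1 a2 * (a2 / gd a1 a2))

theorem pairData {W a1 a2 : O} (h1 : Primary a1) (h2 : Primary a2) (s1 : Squarefree a1)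
    (s2 : Squarefree a2) (c1 : IsCoprime W a1) (c2 : IsCoprime W a2) : PairData W a1 a2 := by
  obtain ⟨r1, r2, pd, p1, p2, e1, e2, hc⟩ := gd_spec h1 h2
  have q1 : a1 / gd a1 a2 = r1 := div_eq_of pd.ne_zero e1
  have q2 : a2 / gd a1 a2 = r2 := div_eq_of pd.ne_zero e2
  have t1 : Squarefree (gd a1 a2 * r1) := by rw [← e1]; exact s1
  have t2 : Squarefree (gd a1 a2 * r2) := by rw [← e2]; exact s2
  have u1 := squarefree_mul_iff.1 t1
  have u2 := squarefree_mul_iff.1 t2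
  have v1 : IsCoprime W (gd a1 a2 * r1) := by rw [← e1]; exact c1
  have v2 : IsCoprime W (gd a1 a2 * r2) := by rw [← e2]; exact c2
  constructor
  · exact pd
  · rw [q1]; exact p1
  · rw [q2]; exact p2
  · rw [q1]; exact e1.symm
  · rw [q2]; exact e2.symm
  · rw [q1, q2]; exact hc
  · exact u1.2.1
  · rw [q1]; exact u1.2.2
  · rw [q2]; exact u2.2.2
  · rw [q1, q2]
    exact v1.of_mul_right_left.mul_right (v1.of_mul_right_right.mul_right v2.of_mul_right_right)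
  · rw [q1, q2]
    exact (isRelPrime_iff_isCoprime.1 u1.1).mul_right (isRelPrime_iff_isCoprime.1 u2.1)

/-! ### the terms -/

/-- main term of a pair -/
noncomputable def mainPair (κI : ℂ) (B : ℝ) (W a1 a2 : O) : ℂ :=
  ((2 / (9 * Real.sqrt 3) * B ^ (2 / 3 : ℝ) * KU.beta W *
    ((N a1 : ℝ) * N a2) ^ (-(1 / 6 : ℝ)) * KU.beta (a1 * a2) : ℝ) : ℂ) * κI

/-- error term of a pair -/
noncomputable def errPair (E B : ℝ) (a1 a2 : O) : ℝ :=
  E * B * (N (gd a1 a2) / Real.sqrt ((N a1 : ℝ) * N a2)) *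
    (HB.D (a1 / gd a1 a2 * (a2 / gd a1 a2))).card *
    min 1 (((N (a1 / gd a1 a2 * (a2 / gd a1 a2)) : ℝ) / (B * N (gd a1 a2))) ^ (1 / 3 : ℝ))

/-- diagonal term -/
noncomputable def diagTerm (V : ℝ → ℂ) (B : ℝ) (W a : O) : ℂ :=
  ((2 * B / (9 * Real.sqrt 3) * KU.beta W * KU.beta a : ℝ) : ℂ) * PO.Vo V 0

/-- non-cube part of a pair -/
noncomputable def ncPair (V : ℝ → ℂ) (B : ℝ) (W a1 a2 : O) : ℂ :=
  (pre B W ((N a1 : ℝ) * N a2) : ℂ) * ∑' κ : O, if ∃ ν : O, κ = ν ^ 3 then 0 else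
    cc W (gd a1 a2) κ * ff V (Tn B W ((N a1 : ℝ) * N a2)) (a1 / gd a1 a2) (a2 / gd a1 a2) κ

theorem ch_zero_of_primary {r : O} (hr : Primary r) : ch r 0 = if r = 1 then 1 else 0 := by
  split_ifs with h
  · rw [h]; simp
  · rw [ch, sym_eq_zero.2, map_zero]
    rw [isCoprime_zero_left]
    exact fun hu => h (hr.eq_one hu)

theorem beta_congr_mul {d r1 r2 : O} (hd : d ≠ 0) (h1 : r1 ≠ 0) (h2 : r2 ≠ 0) :
    KU.beta (d * r1 * (d * r2)) = KU.beta (d * (r1 * r2)) := by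
  rw [KU.beta, KU.beta, KU.pdv_congr (b := d * (r1 * r2))]
  · exact mul_ne_zero (mul_ne_zero hd h1) (mul_ne_zero hd h2)
  · exact mul_ne_zero hd (mul_ne_zero h1 h2)
  · intro p _ hp
    constructor
    · intro h
      rcases hp.dvd_or_dvd h with h | h <;> rcases hp.dvd_or_dvd h with h | h
      · exact h.mul_right _
      · exact (h.mul_right _).mul_left _
      · exact h.mul_right _
      · exact (h.mul_left _).mul_left _
    · intro h
      rcases hp.dvd_or_dvd h with h | h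
      · exact (h.mul_right _).mul_right _
      · rcases hp.dvd_or_dvd h with h | h
        · exact (h.mul_left _).mul_right _
        · exact (h.mul_left _).mul_left _

theorem beta_mul {a b : O} (ha : Primary a) (hb : Primary b) (hab : IsCoprime a b) :
    KU.beta (a * b) = KU.beta a * KU.beta b := by
  have h := KU.phi_primary (a * b) (ha.mul hb)
  rw [KU.phi_mul_of_coprime hab, N_mul] at h
  push_cast at h
  rw [KU.phi_primary a ha, KU.phi_primary b hb] at h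
  have na : (N a : ℝ) ≠ 0 := by exact_mod_cast (N_pos ha.ne_zero).ne'
  have nb : (N b : ℝ) ≠ 0 := by exact_mod_cast (N_pos hb.ne_zero).ne'
  have : (N a * N b : ℝ) * (KU.beta (a * b) - KU.beta a * KU.beta b) = 0 := by
    linear_combination -h
  rcases mul_eq_zero.1 this with h | h
  · exact absurd h (mul_ne_zero na nb)
  · linarith

theorem phi_le_N (a : O) (ha : Primary a) : (KU.phi a : ℝ) ≤ N a := by
  rw [KU.phi_primary a ha]
  have h1 : KU.beta a ≤ 1 := by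
    rw [KU.beta]
    refine Finset.prod_le_one (fun p hp => ?_) fun p hp => ?_
    · have hp' := (mem_pdv ha.ne_zero).1 hp
      have := one_le_N hp'.1.ne_zero
      rw [sub_nonneg, div_le_one (by linarith)]; exact this
    · rw [sub_le_self_iff]; positivity
  have : (0 : ℝ) ≤ N a := Nat.cast_nonneg _
  nlinarith

theorem rpow_27 : (27 : ℝ) ^ (1 / 3 : ℝ) = 3 := by
  rw [show (27 : ℝ) = 3 ^ (3 : ℝ) by norm_num, ← Real.rpow_mul (by norm_num)]
  norm_num

/-- the real identity behind the main term -/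
theorem main_identity {B nW nd n1 n2 : ℝ} (hB : 0 < B) (hW : 0 < nW) (hd : 0 < nd) (h1 : 0 < n1)
    (h2 : 0 < n2) :
    2 * B / (9 * Real.sqrt 3 * nW * Real.sqrt (nd * n1 * (nd * n2))) *
      (1 / 3 * (nW * nd) * (B * nd / (27 * (n1 * n2))) ^ (-(1 / 3 : ℝ))) =
      2 / (9 * Real.sqrt 3) * B ^ (2 / 3 : ℝ) * (nd * n1 * (nd * n2)) ^ (-(1 / 6 : ℝ)) := by
  set x := nd * n1 * (nd * n2) with hx
  have hxp : 0 < x := by positivity
  have g1 : (B * nd / (27 * (n1 * n2))) ^ (-(1 / 3 : ℝ)) =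
      3 * (B ^ (-(1 / 3 : ℝ)) * nd ^ (-1 : ℝ) * x ^ (1 / 3 : ℝ)) := by
    have : B * nd / (27 * (n1 * n2)) = B * nd ^ (3 : ℝ) / (27 * x) := by
      have : nd ^ (3 : ℝ) = nd ^ 3 := by rw [← Real.rpow_natCast]; norm_num
      rw [this, hx]; field_simp
    rw [this, Real.div_rpow (by positivity) (by positivity),
      Real.mul_rpow hB.le (by positivity), Real.mul_rpow (by norm_num) hxp.le,
      ← Real.rpow_mul hd.le]
    have g2 : (27 : ℝ) ^ (-(1 / 3 : ℝ)) = 3⁻¹ := by rw [Real.rpow_neg (by norm_num), rpow_27]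
    rw [g2, Real.rpow_neg hxp.le (1 / 3)]
    have g3 : (3 : ℝ) * -(1 / 3) = -1 := by norm_num
    rw [g3]
    field_simp
  have g4 : Real.sqrt x = x ^ (1 / 2 : ℝ) := Real.sqrt_eq_rpow x
  have g5 : B * B ^ (-(1 / 3 : ℝ)) = B ^ (2 / 3 : ℝ) := by
    nth_rewrite 1 [← Real.rpow_one B]
    rw [← Real.rpow_add hB]; norm_num
  have g6 : x ^ (1 / 3 : ℝ) / x ^ (1 / 2 : ℝ) = x ^ (-(1 / 6 : ℝ)) := by
    rw [← Real.rpow_sub hxp]; norm_num
  have s3 : (0 : ℝ) < Real.sqrt 3 := Real.sqrt_pos.2 (by norm_num)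
  rw [g1, g4, ← g5, ← g6, Real.rpow_neg_one]
  field_simp

theorem min_bound {B nd n : ℝ} (hB : 0 < B) (hd : 0 < nd) (hn : 0 < n) :
    min 1 ((B * nd / (27 * n)) ^ (-(1 / 3 : ℝ))) ≤ 3 * min 1 ((n / (B * nd)) ^ (1 / 3 : ℝ)) := by
  have g1 : (B * nd / (27 * n)) ^ (-(1 / 3 : ℝ)) = 3 * (n / (B * nd)) ^ (1 / 3 : ℝ) := by
    have : B * nd / (27 * n) = (27 * (n / (B * nd)))⁻¹ := by field_simp
    rw [this, Real.inv_rpow (by positivity), Real.rpow_neg (by positivity), inv_inv,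
      Real.mul_rpow (by norm_num) (by positivity), rpow_27]
  rw [g1]
  have g2 : (0 : ℝ) ≤ (n / (B * nd)) ^ (1 / 3 : ℝ) := by positivity
  rcases le_total 1 ((n / (B * nd)) ^ (1 / 3 : ℝ)) with h | h
  · rw [min_eq_left h]
    exact (min_le_left _ _).trans (by norm_num)
  · rw [min_eq_right h]
    exact min_le_right _ _

theorem phi_cast {W : O} (hW : Primary W) : (KU.phi W : ℂ) = ((N W * KU.beta W : ℝ) : ℂ) := by
  rw [← KU.phi_primary W hW]; push_cast; rfl

theorem phi_div {r : O} (hr : Primary r) : (KU.phi r : ℂ) / N r = ((KU.beta r : ℝ) : ℂ) := by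
  have h6 : (N r : ℂ) ≠ 0 := by exact_mod_cast (N_pos hr.ne_zero).ne'
  rw [phi_cast hr]; push_cast; field_simp

theorem zero_term {V : ℝ → ℂ} {B : ℝ} {W a1 a2 : O} (hW : Primary W) (P : PairData W a1 a2)
    (T : ℝ) :
    (pre B W ((N a1 : ℝ) * N a2) : ℂ) * (cc W (gd a1 a2) 0 *
      ff V T (a1 / gd a1 a2) (a2 / gd a1 a2) 0) =
      if a1 = a2 then diagTerm V B W a1 else 0 := by
  obtain ⟨hd, h1, h2, e1, e2, hr, sd, s1, s2, hWd, hdr⟩ := P
  set d := gd a1 a2 with hdd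
  set r1 := a1 / d with hr1
  set r2 := a2 / d with hr2
  have pW : (0 : ℝ) < N W := by exact_mod_cast N_pos hW.ne_zero
  have pd : (0 : ℝ) < N d := by exact_mod_cast N_pos hd.ne_zero
  have s3 : (0 : ℝ) < Real.sqrt 3 := Real.sqrt_pos.2 (by norm_num)
  have n1 : (N a1 : ℝ) = N d * N r1 := by rw [← e1, N_mul]; push_cast; rfl
  have n2 : (N a2 : ℝ) = N d * N r2 := by rw [← e2, N_mul]; push_cast; rfl
  rw [ff, ch_zero_of_primary h1, ch_zero_of_primary h2]
  by_cases h12 : a1 = a2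
  · have hrr : r1 = r2 := by rw [hr1, hr2, h12]
    have hu : IsUnit r1 := by
      rw [← hrr] at hr
      exact isCoprime_self.1 hr
    have hr11 : r1 = 1 := h1.eq_one hu
    have hr21 : r2 = 1 := by rw [← hrr]; exact hr11
    rw [if_pos hr11, if_pos hr21, if_pos h12, map_one, one_mul, one_mul]
    have hc0 : cc W d 0 = (KU.phi W : ℂ) * KU.phi d := by
      have := cc_cube (W := W) (d := d) (m := 0) hW hd
      rwa [mul_zero, zero_pow three_ne_zero] at this
    have ha1 : a1 = d := by rw [← e1, hr11, mul_one]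
    have hN2 : (N r1 : ℝ) = 1 := by rw [hr11]; simp
    have hN3 : (N r2 : ℝ) = 1 := by rw [hr21]; simp
    have hsx : Real.sqrt ((N a1 : ℝ) * N a2) = N d := by
      rw [n1, n2, hN2, hN3, mul_one, Real.sqrt_mul_self pd.le]
    rw [hc0, N_zero, Nat.cast_zero, mul_zero, diagTerm, ha1] at *
    rw [pre, hsx, phi_cast hW, phi_cast hd]
    have f3 : 2 * B / (9 * Real.sqrt 3) * KU.beta W * KU.beta d =
        (2 * B / (9 * Real.sqrt 3 * N W * N d)) * (N W * KU.beta W) * (N d * KU.beta d) := by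
      field_simp
    rw [f3]
    push_cast
    ring
  · have : ¬ (r1 = 1 ∧ r2 = 1) := by
      rintro ⟨q1, q2⟩
      apply h12
      rw [← e1, ← e2, q1, q2]
    rw [if_neg h12]
    by_cases q1 : r1 = 1
    · have q2 : r2 ≠ 1 := fun q2 => this ⟨q1, q2⟩
      rw [if_neg q2]; simp
    · rw [if_neg q1]; simp

theorem main_term {κI : ℂ} {B : ℝ} (hB : 0 < B) {W a1 a2 : O} (hW : Primary W)
    (P : PairData W a1 a2) :
    (pre B W ((N a1 : ℝ) * N a2) : ℂ) * ((1 / 3 : ℂ) * ((KU.phi W : ℂ) * KU.phi (gd a1 a2)) *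
      (κI * (((B * N (gd a1 a2) / (27 * (N (a1 / gd a1 a2) * N (a2 / gd a1 a2)))) ^
        (-(1 / 3 : ℝ)) : ℝ) : ℂ) * ((KU.phi (a1 / gd a1 a2 * (a2 / gd a1 a2)) : ℂ) /
          N (a1 / gd a1 a2 * (a2 / gd a1 a2))))) =
      mainPair κI B W a1 a2 := by
  obtain ⟨hd, h1, h2, e1, e2, hr, sd, s1, s2, hWd, hdr⟩ := P
  set d := gd a1 a2 with hdd
  set r1 := a1 / d with hr1
  set r2 := a2 / d with hr2
  have pW : (0 : ℝ) < N W := by exact_mod_cast N_pos hW.ne_zero
  have pd : (0 : ℝ) < N d := by exact_mod_cast N_pos hd.ne_zero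
  have p1 : (0 : ℝ) < N r1 := by exact_mod_cast N_pos h1.ne_zero
  have p2 : (0 : ℝ) < N r2 := by exact_mod_cast N_pos h2.ne_zero
  have n1 : (N a1 : ℝ) = N d * N r1 := by rw [← e1, N_mul]; push_cast; rfl
  have n2 : (N a2 : ℝ) = N d * N r2 := by rw [← e2, N_mul]; push_cast; rfl
  have f4 : KU.beta (a1 * a2) = KU.beta d * KU.beta (r1 * r2) := by
    conv_lhs => rw [← e1, ← e2]
    rw [beta_congr_mul hd.ne_zero h1.ne_zero h2.ne_zero, beta_mul hd (h1.mul h2) hdr]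
  rw [phi_cast hW, phi_cast hd, phi_div (h1.mul h2), mainPair, f4, n1, n2, pre]
  have key := main_identity hB pW pd p1 p2
  have e3 : 2 / (9 * Real.sqrt 3) * B ^ (2 / 3 : ℝ) * KU.beta W *
      ((N d : ℝ) * N r1 * (N d * N r2)) ^ (-(1 / 6 : ℝ)) * (KU.beta d * KU.beta (r1 * r2)) =
      (2 / (9 * Real.sqrt 3) * B ^ (2 / 3 : ℝ) *
        ((N d : ℝ) * N r1 * (N d * N r2)) ^ (-(1 / 6 : ℝ))) *
        (KU.beta W * KU.beta d * KU.beta (r1 * r2)) := by ring
  rw [e3, ← key]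
  push_cast
  ring

theorem final_bound {E B : ℝ} (hE : 0 ≤ E) (hB : 0 < B) {W a1 a2 : O} (hW : Primary W)
    (P : PairData W a1 a2) {y : ℝ} (hy0 : 0 ≤ y)
    (hy : y ≤ (HB.D (a1 / gd a1 a2 * (a2 / gd a1 a2))).card * (E * min 1
      ((B * N (gd a1 a2) / (27 * (N (a1 / gd a1 a2) * N (a2 / gd a1 a2)))) ^ (-(1 / 3 : ℝ))))) :
    pre B W ((N a1 : ℝ) * N a2) * (1 / 3 * (KU.phi W * KU.phi (gd a1 a2))) * y ≤
      errPair E B a1 a2 := by
  obtain ⟨hd, h1, h2, e1, e2, hr, sd, s1, s2, hWd, hdr⟩ := P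
  set d := gd a1 a2 with hdd
  set r1 := a1 / d with hr1
  set r2 := a2 / d with hr2
  have pW : (0 : ℝ) < N W := by exact_mod_cast N_pos hW.ne_zero
  have pd : (0 : ℝ) < N d := by exact_mod_cast N_pos hd.ne_zero
  have p1 : (0 : ℝ) < N r1 := by exact_mod_cast N_pos h1.ne_zero
  have p2 : (0 : ℝ) < N r2 := by exact_mod_cast N_pos h2.ne_zero
  have n1 : (N a1 : ℝ) = N d * N r1 := by rw [← e1, N_mul]; push_cast; rfl
  have n2 : (N a2 : ℝ) = N d * N r2 := by rw [← e2, N_mul]; push_cast; rfl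
  have s3 : (0 : ℝ) < Real.sqrt 3 := Real.sqrt_pos.2 (by norm_num)
  set x : ℝ := (N a1 : ℝ) * N a2 with hx
  have hxp : 0 < x := by rw [hx, n1, n2]; positivity
  have hsx : 0 < Real.sqrt x := Real.sqrt_pos.2 hxp
  have hpre : 0 ≤ pre B W x := by rw [pre]; positivity
  have hphi : (KU.phi W * KU.phi d : ℝ) ≤ N W * N d :=
    mul_le_mul (phi_le_N W hW) (phi_le_N d hd) (Nat.cast_nonneg _) (Nat.cast_nonneg _)
  have hmin := min_bound hB pd (mul_pos p1 p2)
  have hNr : (N (r1 * r2) : ℝ) = N r1 * N r2 := by rw [N_mul]; push_cast; rfl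
  set m := min 1 (((N r1 * N r2 : ℝ) / (B * N d)) ^ (1 / 3 : ℝ)) with hm
  have hm0 : 0 ≤ m := le_min zero_le_one (by positivity)
  have h3 : y ≤ (HB.D (r1 * r2)).card * (E * (3 * m)) := by
    refine hy.trans ?_
    gcongr
  calc pre B W x * (1 / 3 * (KU.phi W * KU.phi d)) * y
      ≤ pre B W x * (1 / 3 * (N W * N d)) * ((HB.D (r1 * r2)).card * (E * (3 * m))) := by
        refine mul_le_mul ?_ h3 hy0 (by positivity)
        refine mul_le_mul_of_nonneg_left ?_ hpre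
        exact mul_le_mul_of_nonneg_left hphi (by norm_num)
    _ = 2 / (9 * Real.sqrt 3) * (E * B * (N d / Real.sqrt x) * (HB.D (r1 * r2)).card * m) := by
        rw [pre]
        field_simp
    _ ≤ 1 * (E * B * (N d / Real.sqrt x) * (HB.D (r1 * r2)).card * m) := by
        refine mul_le_mul_of_nonneg_right ?_ (by positivity)
        rw [div_le_one (by positivity)]
        have : (1 : ℝ) ≤ Real.sqrt 3 := Real.one_le_sqrt.2 (by norm_num)
        linarith
    _ = errPair E B a1 a2 := by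
        rw [one_mul, errPair, ← hx, ← hdd, ← hr1, ← hr2, hNr]

theorem pair_main {V : ℝ → ℂ} (hV : PO.Wt V) {κI : ℂ} {E : ℝ} (hE : 0 ≤ E)
    (hK : CubeKernel V κI E) {B : ℝ} (hB : 0 < B) {W a1 a2 : O} (hW : Primary W)
    (sW : Squarefree W) (P : PairData W a1 a2) :
    ‖pairSum V B W a1 a2 - (if a1 = a2 then diagTerm V B W a1 else 0) - mainPair κI B W a1 a2 -
      ncPair V B W a1 a2‖ ≤ errPair E B a1 a2 := by
  have hz := zero_term (V := V) (B := B) hW P (Tn B W ((N a1 : ℝ) * N a2))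
  have hmain := main_term (κI := κI) hB hW P
  have hfin := final_bound hE hB hW P (y := ‖csum V (B * N (gd a1 a2) / (27 * (N (a1 / gd a1 a2) *
    N (a2 / gd a1 a2)))) (a1 / gd a1 a2 * (a2 / gd a1 a2)) -
    κI * (((B * N (gd a1 a2) / (27 * (N (a1 / gd a1 a2) * N (a2 / gd a1 a2)))) ^
        (-(1 / 3 : ℝ)) : ℝ) : ℂ) * ((KU.phi (a1 / gd a1 a2 * (a2 / gd a1 a2)) : ℂ) /
          N (a1 / gd a1 a2 * (a2 / gd a1 a2)))‖) (norm_nonneg _)
  obtain ⟨hd, h1, h2, e1, e2, hr, sd, s1, s2, hWd, hdr⟩ := P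
  set d := gd a1 a2 with hdd
  set r1 := a1 / d with hr1
  set r2 := a2 / d with hr2
  have hd0 := hd.ne_zero
  have hW0 := hW.ne_zero
  have pW : (0 : ℝ) < N W := by exact_mod_cast N_pos hW0
  have pd : (0 : ℝ) < N d := by exact_mod_cast N_pos hd0
  have p1 : (0 : ℝ) < N r1 := by exact_mod_cast N_pos h1.ne_zero
  have p2 : (0 : ℝ) < N r2 := by exact_mod_cast N_pos h2.ne_zero
  have n1 : (N a1 : ℝ) = N d * N r1 := by rw [← e1, N_mul]; push_cast; rfl
  have n2 : (N a2 : ℝ) = N d * N r2 := by rw [← e2, N_mul]; push_cast; rfl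
  set x : ℝ := (N a1 : ℝ) * N a2 with hx
  have hxp : 0 < x := by rw [hx, n1, n2]; positivity
  set T := Tn B W x with hTdef
  have hT : 0 < T := by rw [hTdef, Tn]; positivity
  have key := pairSum_eq hV hB hW hd h1 h2 sd s1 s2 hWd hdr hr
  rw [e1, e2, ← hx, ← hTdef] at key
  have hsum := ccff_summable hV hT hW0 hd0 r1 r2
  rw [tsum_split hsum, cube_part hV hT hW hd sW sd hWd hdr] at key
  have sr : Squarefree (r1 * r2) := squarefree_mul_of_coprime hr s1 s2
  set T' := B * N d / (27 * (N r1 * N r2 : ℝ)) with hT'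
  have hTT : T * ((N d : ℝ) ^ 3 * (N W : ℝ) ^ 3) = T' := by
    rw [hT', hTdef, Tn, hx, n1, n2]
    field_simp
  have hT'p : 0 < T' := by positivity
  rw [hTT] at key
  have hc := csum_main hV hE hK hT'p (h1.mul h2) sr
  have hdec : pairSum V B W a1 a2 - (if a1 = a2 then diagTerm V B W a1 else 0) -
      mainPair κI B W a1 a2 - ncPair V B W a1 a2 =
      (pre B W x : ℂ) * ((1 / 3 : ℂ) * ((KU.phi W : ℂ) * KU.phi d)) *
        (csum V T' (r1 * r2) -
          κI * (T' ^ (-(1 / 3 : ℝ)) : ℝ) * ((KU.phi (r1 * r2) : ℂ) / N (r1 * r2))) := by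
    rw [key, ← hz, ← hmain, ncPair]
    ring
  have hpre : 0 ≤ pre B W x := by rw [pre]; positivity
  have hn : ‖(pre B W x : ℂ) * ((1 / 3 : ℂ) * ((KU.phi W : ℂ) * KU.phi d))‖ =
      pre B W x * (1 / 3 * (KU.phi W * KU.phi d)) := by
    rw [norm_mul, norm_mul, norm_mul, Complex.norm_real, Real.norm_of_nonneg hpre,
      Complex.norm_natCast, Complex.norm_natCast]
    norm_num
  rw [hdec, norm_mul, hn]
  exact hfin hc

end Vale.Agent.P006.V1
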