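import Vale.Agent.P006.V1.NCKer
import Vale.Agent.P006.DISP.Stmt

/-!
P006, block V1: the bound of the non-cube part by the non-cube functional `DISP.NCf`.
-/

namespace Vale.Agent.P006.V1

open MeasureTheory
open scoped BigOperators Classical
open Vale.Agent.P006
open Vale.Agent.P006.DISP (NonCube csumI ncTerm NCf Adm)

theorem nonCube_iff {κ : O} : NonCube κ ↔ ¬ ∃ ν : O, κ = ν ^ 3 := by
  rw [NonCube]
  refine ⟨fun h => h.2, fun h => ⟨?_, h⟩⟩
  rintro rfl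
  exact h ⟨0, by ring⟩

/-- the support of `α` -/
noncomputable def supp (α : O → ℂ) (A : ℝ) : Finset O := (SPB (2 * A)).filter (fun a => α a ≠ 0)

theorem pairData_supp {W : O} {A : ℝ} {α : O → ℂ} (hα : Adm W A α) :
    ∀ a1 ∈ supp α A, ∀ a2 ∈ supp α A, PairData W a1 a2 := by
  intro a1 h1 a2 h2
  obtain ⟨p1, c1, -, -⟩ := hα.supp a1 (Finset.mem_filter.1 h1).2
  obtain ⟨p2, c2, -, -⟩ := hα.supp a2 (Finset.mem_filter.1 h2).2
  exact pairData p1.1 p2.1 p1.2 p2.2 c1.symm c2.symm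

theorem csum_eq_Zt {W : O} {A : ℝ} {α : O → ℂ} (hα : Adm W A α) (τ t : ℝ) {j : O}
    (hj : Primary j) (κ : O) :
    Zt ((supp α A).filter (fun a => j ∣ a)) (fun a => α a * ch (a / j) κ)
      (fun a => (N a : ℝ) / A) τ t = DISP.csum α A τ t j κ := by
  have hj0 := hj.ne_zero
  have hNj : (0 : ℝ) < N j := by exact_mod_cast N_pos hj0
  rw [Zt, DISP.csum]
  have h1 : ∑ r ∈ SPB (2 * A / N j),
      α (j * r) * ((((N (j * r) : ℝ) / A : ℝ) : ℂ) ^ ((τ : ℂ) + t * Complex.I)) * ch r κ =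
      ∑ r ∈ (SPB (2 * A / N j)).filter (fun r => α (j * r) ≠ 0),
      α (j * r) * ((((N (j * r) : ℝ) / A : ℝ) : ℂ) ^ ((τ : ℂ) + t * Complex.I)) * ch r κ := by
    rw [Finset.sum_filter_of_ne]
    intro r _ hr h
    apply hr
    rw [h, zero_mul, zero_mul]
  rw [h1]
  refine Finset.sum_nbij' (fun a => a / j) (fun r => j * r) ?_ ?_ ?_ ?_ ?_
  · intro a ha
    rw [Finset.mem_filter, supp, Finset.mem_filter] at ha
    obtain ⟨⟨h2, h3⟩, h4⟩ := ha
    rw [mem_SPB] at h2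
    have e1 : j * (a / j) = a := EuclideanDomain.mul_div_cancel' hj0 h4
    rw [Finset.mem_filter, mem_SPB, e1]
    refine ⟨⟨⟨?_, ?_⟩, ?_⟩, h3⟩
    · exact Primary.of_mul hj (by rw [e1]; exact h2.1.1)
    · rw [le_div_iff₀ hNj]
      have : (N a : ℝ) = N j * N (a / j) := by
        have h5 : N a = N (j * (a / j)) := by rw [e1]
        rw [h5, N_mul]; push_cast; rfl
      rw [mul_comm, ← this]; exact h2.1.2
    · exact h2.2.squarefree_of_dvd ⟨j, by rw [mul_comm, e1]⟩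
  · intro r hr
    rw [Finset.mem_filter, mem_SPB] at hr
    obtain ⟨h2, h3⟩ := hr
    obtain ⟨p1, c1, -, h5⟩ := hα.supp _ h3
    rw [Finset.mem_filter, supp, Finset.mem_filter, mem_SPB]
    exact ⟨⟨⟨⟨p1.1, h5⟩, p1.2⟩, h3⟩, dvd_mul_right j r⟩
  · intro a ha
    rw [Finset.mem_filter] at ha
    exact EuclideanDomain.mul_div_cancel' hj0 ha.2
  · intro r _
    exact mul_div_cancel_left₀ r hj0
  · intro a ha
    rw [Finset.mem_filter] at ha
    have e1 : j * (a / j) = a := EuclideanDomain.mul_div_cancel' hj0 ha.2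
    simp only [e1]
    ring

theorem csumI_eq {W : O} {A : ℝ} {α : O → ℂ} (hα : Adm W A α) (τ : ℝ) {j : O}
    (hj : Primary j) (κ : O) :
    ∫ t : ℝ, (1 + t ^ 2)⁻¹ * ‖Zt ((supp α A).filter (fun a => j ∣ a))
      (fun a => α a * ch (a / j) κ) (fun a => (N a : ℝ) / A) τ t‖ ^ 2 = csumI α A τ j κ := by
  rw [DISP.csumI]
  refine integral_congr_ae (Filter.Eventually.of_forall fun t => ?_)
  simp only [csum_eq_Zt hα τ t hj κ]

theorem csumI_nonneg (α : O → ℂ) (A τ : ℝ) (j κ : O) : 0 ≤ csumI α A τ j κ :=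
  integral_nonneg fun t => by positivity

theorem csumI_le {A : ℝ} (hA : 0 < A) (α : O → ℂ) (τ : ℝ) (j : O) (hj : j ≠ 0) :
    ∃ M : ℝ, 0 ≤ M ∧ ∀ κ : O, csumI α A τ j κ ≤ M := by
  set b : ℝ := ∑ r ∈ SPB (2 * A / N j), ‖α (j * r)‖ * ((N (j * r) : ℝ) / A) ^ τ with hb
  have hu : ∀ r ∈ SPB (2 * A / N j), (0 : ℝ) < (N (j * r) : ℝ) / A := by
    intro r hr
    rw [mem_SPB] at hr
    have : 0 < N (j * r) := N_pos (mul_ne_zero hj hr.1.1.ne_zero)
    positivity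
  have hb0 : 0 ≤ b := Finset.sum_nonneg fun r hr => by have := hu r hr; positivity
  refine ⟨b ^ 2 * Real.pi, by positivity, fun κ => ?_⟩
  have key : ∀ t : ℝ, DISP.csum α A τ t j κ = Zt (SPB (2 * A / N j))
      (fun r => α (j * r) * ch r κ) (fun r => (N (j * r) : ℝ) / A) τ t := by
    intro t
    rw [Zt, DISP.csum]
    refine Finset.sum_congr rfl fun r _ => ?_
    ring
  have hI := integrable_Zt (SPB (2 * A / N j)) (fun r => α (j * r) * ch r κ)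
    (fun r => (N (j * r) : ℝ) / A) hu τ
  have hle : ∀ t : ℝ, (1 + t ^ 2)⁻¹ * ‖DISP.csum α A τ t j κ‖ ^ 2 ≤ (1 + t ^ 2)⁻¹ * b ^ 2 := by
    intro t
    rw [key t]
    have h1 := norm_Zt_le (SPB (2 * A / N j)) (fun r => α (j * r) * ch r κ)
      (fun r => (N (j * r) : ℝ) / A) hu τ t
    have h2 : ∑ r ∈ SPB (2 * A / N j), ‖α (j * r) * ch r κ‖ * ((N (j * r) : ℝ) / A) ^ τ ≤ b := by
      refine Finset.sum_le_sum fun r hr => ?_
      have := hu r hr
      rw [norm_mul]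
      have h3 := norm_ch_le r κ
      have h4 : ‖α (j * r)‖ * ‖ch r κ‖ ≤ ‖α (j * r)‖ * 1 :=
        mul_le_mul_of_nonneg_left h3 (norm_nonneg _)
      rw [mul_one] at h4
      exact mul_le_mul_of_nonneg_right h4 (by positivity)
    have h3 := h1.trans h2
    gcongr
  rw [DISP.csumI]
  have hI2 : Integrable fun t : ℝ => (1 + t ^ 2)⁻¹ * ‖DISP.csum α A τ t j κ‖ ^ 2 := by
    simp only [key]; exact hI
  calc ∫ t : ℝ, (1 + t ^ 2)⁻¹ * ‖DISP.csum α A τ t j κ‖ ^ 2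
      ≤ ∫ t : ℝ, (1 + t ^ 2)⁻¹ * b ^ 2 :=
        integral_mono hI2 (integrable_inv_one_add_sq.mul_const _) hle
    _ = b ^ 2 * Real.pi := by
        rw [integral_mul_const, integral_univ_inv_one_add_sq]; ring

theorem ncTerm_nonneg (α : O → ℂ) {A B : ℝ} (hB : 0 ≤ B) (j κ : O) : 0 ≤ ncTerm α A B j κ := by
  rw [ncTerm]
  have h1 := csumI_nonneg α A (-(1 / 3)) j κ
  have h2 := csumI_nonneg α A (3 / 2) j κ
  split_ifs <;> positivity

theorem ncTerm_summable {A B : ℝ} (hA : 0 < A) (hB : 0 < B) (α : O → ℂ) {j : O} (hj : j ≠ 0) :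
    Summable fun κ : O => ncTerm α A B j κ := by
  obtain ⟨M1, hM1, h1⟩ := csumI_le hA α (-(1 / 3)) j hj
  obtain ⟨M2, hM2, h2⟩ := csumI_le hA α (3 / 2) j hj
  refine summable_of_bound (C := N j * ((A ^ 2 / B) ^ 2 * (M1 + M2))) fun κ hκ => ?_
  rw [Real.norm_of_nonneg (ncTerm_nonneg α hB.le j κ), ncTerm]
  have hN : (0 : ℝ) < N κ := by exact_mod_cast N_pos hκ
  have hg : (N (EuclideanDomain.gcd j κ) : ℝ) ≤ N j := by
    exact_mod_cast Nat.le_of_dvd (N_pos hj) (N_dvd_N (EuclideanDomain.gcd_dvd_left j κ))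
  have hx : (0 : ℝ) < (N κ : ℝ) * B / A ^ 2 := by positivity
  have hx2 : ((N κ : ℝ) * B / A ^ 2) ^ (-2 : ℝ) = (A ^ 2 / B) ^ 2 * ((N κ : ℝ) ^ 2)⁻¹ := by
    rw [Real.rpow_neg hx.le]
    have : ((N κ : ℝ) * B / A ^ 2) ^ (2 : ℝ) = ((N κ : ℝ) * B / A ^ 2) ^ 2 := by
      rw [← Real.rpow_natCast]; norm_num
    rw [this]
    field_simp
  have hR : (N j : ℝ) * ((A ^ 2 / B) ^ 2 * (M1 + M2)) * ((N κ : ℝ) ^ 2)⁻¹ =
      N j * (((N κ : ℝ) * B / A ^ 2) ^ (-2 : ℝ) * (M1 + M2)) := by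
    rw [hx2]; ring
  rw [hR]
  split_ifs with h3 h4
  · have h5 : ((N κ : ℝ) * B / A ^ 2) ^ (-(1 / 6) : ℝ) ≤ ((N κ : ℝ) * B / A ^ 2) ^ (-2 : ℝ) := by
      refine Real.rpow_le_rpow_of_exponent_ge hx ?_ (by norm_num)
      rw [div_le_one (by positivity)]; exact h4
    have h6 : csumI α A (-(1 / 3)) j κ ≤ M1 + M2 := (h1 κ).trans (by linarith)
    have h7 := csumI_nonneg α A (-(1 / 3)) j κ
    gcongr
  · have h6 : csumI α A (3 / 2) j κ ≤ M1 + M2 := (h2 κ).trans (by linarith)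
    have h7 := csumI_nonneg α A (3 / 2) j κ
    gcongr
  · positivity

end Vale.Agent.P006.V1
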