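import Vale.Agent.P006.V1.MainPart

/-!
P006, block V1: the algebra of the non-cube part (Moebius inversion over `j = d m`).
-/

namespace Vale.Agent.P006.V1

open scoped BigOperators Classical
open Vale.Agent.P006

theorem mul_div_of_dvd' {p k j : O} (hj : j ∣ k) : p * k / j = p * (k / j) :=
  EuclideanDomain.mul_div_assoc p hj

theorem mul_div_mul' {p k j : O} (hp : p ≠ 0) (hj : j ∣ k) : p * k / (p * j) = k / j :=
  EuclideanDomain.mul_div_mul_cancel hp hj

theorem one_div_one' : (1 : O) / 1 = 1 := EuclideanDomain.div_one 1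

theorem div_ne_zero' {k j : O} (hk : k ≠ 0) (hj : j ∣ k) : k / j ≠ 0 := by
  obtain ⟨c, rfl⟩ := hj
  have hj0 : j ≠ 0 := left_ne_zero_of_mul hk
  rw [mul_div_cancel_left₀ c hj0]
  exact right_ne_zero_of_mul hk

/-- Moebius inversion over squarefree primary elements with a multiplicative weight -/
theorem moebius_inv (c : O → ℂ) (hc1 : c 1 = 1) (hcm : ∀ a b, c (a * b) = c a * c b) {e : O}
    (he : Primary e) (se : Squarefree e) : ∀ f : O → ℂ,
    ∑ j ∈ HB.D e, (∑ d ∈ HB.D j, HB.mob (j / d) * c (j / d) * f d) * c (e / j) = f e := by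
  refine HB.sf_induction (P := fun e => ∀ f : O → ℂ,
    ∑ j ∈ HB.D e, (∑ d ∈ HB.D j, HB.mob (j / d) * c (j / d) * f d) * c (e / j) = f e)
    ?_ ?_ e he se
  · intro f
    rw [HB.D_one, Finset.sum_singleton, HB.D_one, Finset.sum_singleton, one_div_one', HB.mob_one,
      hc1]
    ring
  · intro p k hp hpp hk hsk hc ih f
    have hk0 := hk.ne_zero
    rw [HB.sum_D_mul hp hpp hk hc]
    have e1 : ∀ j ∈ HB.D k, (∑ d ∈ HB.D j, HB.mob (j / d) * c (j / d) * f d) * c (p * k / j) =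
        c p * ((∑ d ∈ HB.D j, HB.mob (j / d) * c (j / d) * f d) * c (k / j)) := by
      intro j hj
      have hj' := (HB.mem_D hk0).1 hj
      rw [mul_div_of_dvd' hj'.2, hcm]; ring
    have e2 : ∀ j ∈ HB.D k, (∑ d ∈ HB.D (p * j), HB.mob (p * j / d) * c (p * j / d) * f d) *
        c (p * k / (p * j)) =
        - c p * ((∑ d ∈ HB.D j, HB.mob (j / d) * c (j / d) * f d) * c (k / j)) +
        (∑ d ∈ HB.D j, HB.mob (j / d) * c (j / d) * f (p * d)) * c (k / j) := by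
      intro j hj
      have hj' := (HB.mem_D hk0).1 hj
      have hj0 : j ≠ 0 := hj'.1.ne_zero
      rw [mul_div_mul' hp.ne_zero hj'.2, HB.sum_D_mul hp hpp hj'.1
        (hc.of_isCoprime_of_dvd_right hj'.2)]
      have e3 : ∀ d ∈ HB.D j, HB.mob (p * j / d) * c (p * j / d) * f d =
          - c p * (HB.mob (j / d) * c (j / d) * f d) := by
        intro d hd
        have hd' := (HB.mem_D hj0).1 hd
        rw [mul_div_of_dvd' hd'.2, hcm, HB.mob_mul hpp (div_ne_zero' hj0 hd'.2)]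
        ring
      have e4 : ∀ d ∈ HB.D j, HB.mob (p * j / (p * d)) * c (p * j / (p * d)) * f (p * d) =
          HB.mob (j / d) * c (j / d) * f (p * d) := by
        intro d hd
        have hd' := (HB.mem_D hj0).1 hd
        rw [mul_div_mul' hp.ne_zero hd'.2]
      rw [Finset.sum_congr rfl e3, Finset.sum_congr rfl e4, ← Finset.mul_sum]
      ring
    rw [Finset.sum_congr rfl e1, Finset.sum_congr rfl e2, Finset.sum_add_distrib,
      ← Finset.mul_sum, ← Finset.mul_sum, ih f, ih (fun d => f (p * d))]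
    ring

/-- the coefficient of `(j, κ)` -/
noncomputable def Cj (W j κ : O) : ℂ :=
  ∑ d ∈ HB.D j, HB.mob (j / d) * cop (j / d) κ * cc W d κ

theorem cc_pair {W a1 a2 : O} (P : PairData W a1 a2) (κ : O) :
    cc W (gd a1 a2) κ *
      (ch (a1 / gd a1 a2) κ * (starRingEnd ℂ) (ch (a2 / gd a1 a2) κ)) =
      ∑ j ∈ HB.D (gd a1 a2), Cj W j κ * (ch (a1 / j) κ * (starRingEnd ℂ) (ch (a2 / j) κ)) := by
  obtain ⟨hd, h1, h2, e1, e2, hr, sd, s1, s2, hWd, hdr⟩ := P
  set d := gd a1 a2 with hdd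
  set r1 := a1 / d with hr1
  set r2 := a2 / d with hr2
  have hd0 := hd.ne_zero
  have key : ∀ j ∈ HB.D d, Cj W j κ * (ch (a1 / j) κ * (starRingEnd ℂ) (ch (a2 / j) κ)) =
      (Cj W j κ * cop (d / j) κ) * (ch r1 κ * (starRingEnd ℂ) (ch r2 κ)) := by
    intro j hj
    have hj' := (HB.mem_D hd0).1 hj
    have q1 : a1 / j = (d / j) * r1 := by
      rw [← e1, mul_comm d r1, mul_div_of_dvd' hj'.2, mul_comm]
    have q2 : a2 / j = (d / j) * r2 := by
      rw [← e2, mul_comm d r2, mul_div_of_dvd' hj'.2, mul_comm]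
    have hdj : d / j ≠ 0 := div_ne_zero' hd0 hj'.2
    rw [q1, q2, ch_mul_left hdj h1.ne_zero, ch_mul_left hdj h2.ne_zero, map_mul,
      ← ch_conj_mul (d / j) κ]
    ring
  rw [Finset.sum_congr rfl key, ← Finset.sum_mul]
  congr 1
  have := moebius_inv (fun m => cop m κ) (cop_one κ) (fun a b => (cop_mul_cop a b κ).symm) hd sd
    (fun d => cc W d κ)
  exact this.symm

/-- exchange of the sums over pairs and over `j` -/
theorem sum_pairs_swap {W : O} (s J : Finset O) (hP : ∀ a1 ∈ s, ∀ a2 ∈ s, PairData W a1 a2)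
    (hJ : ∀ j ∈ J, Primary j) (hs : ∀ a ∈ s, ∀ j, Primary j → j ∣ a → j ∈ J)
    (F : O → O → O → ℂ) :
    ∑ a1 ∈ s, ∑ a2 ∈ s, ∑ j ∈ HB.D (gd a1 a2), F j a1 a2 =
      ∑ j ∈ J, ∑ a1 ∈ s with j ∣ a1, ∑ a2 ∈ s with j ∣ a2, F j a1 a2 := by
  have h1 : ∀ a1 ∈ s, ∀ a2 ∈ s, ∑ j ∈ HB.D (gd a1 a2), F j a1 a2 =
      ∑ j ∈ J, if j ∣ a1 ∧ j ∣ a2 then F j a1 a2 else 0 := by
    intro a1 h1 a2 h2
    obtain ⟨hd, p1, p2, e1, e2, hr, sd, s1, s2, hWd, hdr⟩ := hP a1 h1 a2 h2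
    rw [← Finset.sum_filter]
    refine Finset.sum_congr ?_ fun _ _ => rfl
    ext j
    rw [HB.mem_D hd.ne_zero, Finset.mem_filter]
    constructor
    · rintro ⟨hj, hjd⟩
      have g1 : j ∣ a1 := hjd.trans ⟨_, e1.symm⟩
      have g2 : j ∣ a2 := hjd.trans ⟨_, e2.symm⟩
      exact ⟨hs a1 h1 j hj g1, g1, g2⟩
    · rintro ⟨hj, g1, g2⟩
      refine ⟨hJ j hj, ?_⟩
      obtain ⟨x, y, hxy⟩ := hr
      have : gd a1 a2 = x * a1 + y * a2 := by
        calc gd a1 a2 = gd a1 a2 * (x * (a1 / gd a1 a2) + y * (a2 / gd a1 a2)) := by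
              rw [hxy, mul_one]
          _ = x * (gd a1 a2 * (a1 / gd a1 a2)) + y * (gd a1 a2 * (a2 / gd a1 a2)) := by ring
          _ = x * a1 + y * a2 := by rw [e1, e2]
      rw [this]
      exact dvd_add (g1.mul_left x) (g2.mul_left y)
  rw [Finset.sum_congr rfl fun a1 h => Finset.sum_congr rfl fun a2 h' => h1 a1 h a2 h']
  have h2 : ∀ a1 ∈ s, ∑ a2 ∈ s, ∑ j ∈ J, (if j ∣ a1 ∧ j ∣ a2 then F j a1 a2 else 0) =
      ∑ j ∈ J, ∑ a2 ∈ s, (if j ∣ a1 ∧ j ∣ a2 then F j a1 a2 else 0) :=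
    fun a1 _ => Finset.sum_comm
  rw [Finset.sum_congr rfl h2, Finset.sum_comm]
  refine Finset.sum_congr rfl fun j _ => ?_
  rw [Finset.sum_filter]
  refine Finset.sum_congr rfl fun a1 _ => ?_
  split_ifs with h
  · rw [Finset.sum_filter]
    refine Finset.sum_congr rfl fun a2 _ => ?_
    by_cases h' : j ∣ a2 <;> simp [h, h']
  · exact Finset.sum_eq_zero fun a2 _ => by simp [h]

/-- size of the coefficient -/
theorem norm_Cj_le {W j κ : O} (hW : W ≠ 0) (hj : Primary j) :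
    ‖Cj W j κ‖ ≤ N W * N (EuclideanDomain.gcd j κ) := by
  have hj0 := hj.ne_zero
  have hg0 : EuclideanDomain.gcd j κ ≠ 0 := by
    intro h
    exact hj0 (EuclideanDomain.gcd_eq_zero_iff.1 h).1
  -- uniqueness
  have huniq : ∀ d1 ∈ HB.D j, ∀ d2 ∈ HB.D j, d1 ∣ κ → d2 ∣ κ → IsCoprime κ (j / d1) →
      IsCoprime κ (j / d2) → d1 = d2 := by
    have key : ∀ d1 ∈ HB.D j, ∀ d2 ∈ HB.D j, d1 ∣ κ → IsCoprime κ (j / d2) → d1 ∣ d2 := by
      intro d1 h1 d2 h2 k1 c2
      have h1' := (HB.mem_D hj0).1 h1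
      have h2' := (HB.mem_D hj0).1 h2
      have hc : IsCoprime d1 (j / d2) := c2.of_isCoprime_of_dvd_left k1
      have : d1 ∣ d2 * (j / d2) := by
        rw [EuclideanDomain.mul_div_cancel' h2'.1.ne_zero h2'.2]; exact h1'.2
      exact hc.dvd_of_dvd_mul_right this
    intro d1 h1 d2 h2 k1 k2 c1 c2
    have h1' := (HB.mem_D hj0).1 h1
    have h2' := (HB.mem_D hj0).1 h2
    exact h1'.1.eq_of_associated h2'.1
      (associated_of_dvd_dvd (key d1 h1 d2 h2 k1 c2) (key d2 h2 d1 h1 k2 c1))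
  have hbound : ∀ d ∈ HB.D j, ‖HB.mob (j / d) * cop (j / d) κ * cc W d κ‖ ≤
      if d ∣ κ ∧ IsCoprime κ (j / d) then (N W * N (EuclideanDomain.gcd j κ) : ℝ) else 0 := by
    intro d hd
    have hd' := (HB.mem_D hj0).1 hd
    split_ifs with h
    · rw [norm_mul, norm_mul, HB.norm_mob, one_mul]
      have h1 := norm_cop_le (j / d) κ
      have h2 := norm_cc_le W d κ hW hd'.1.ne_zero
      have h3 : (N d : ℝ) ≤ N (EuclideanDomain.gcd j κ) := by
        have : d ∣ EuclideanDomain.gcd j κ := EuclideanDomain.dvd_gcd hd'.2 h.1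
        exact_mod_cast Nat.le_of_dvd (N_pos hg0) (N_dvd_N this)
      calc ‖cop (j / d) κ‖ * ‖cc W d κ‖ ≤ 1 * (N W * N d) :=
            mul_le_mul h1 h2 (norm_nonneg _) zero_le_one
        _ ≤ N W * N (EuclideanDomain.gcd j κ) := by
            rw [one_mul]; gcongr
    · rw [not_and_or] at h
      rcases h with h | h
      · rw [cc_eq_zero h, mul_zero, norm_zero]
      · rw [cop, if_neg h, mul_zero, zero_mul, norm_zero]
  rw [Cj]
  refine (norm_sum_le _ _).trans ((Finset.sum_le_sum hbound).trans ?_)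
  by_cases hex : ∃ d0 ∈ HB.D j, d0 ∣ κ ∧ IsCoprime κ (j / d0)
  · obtain ⟨d0, hd0, hk0, hc0⟩ := hex
    rw [Finset.sum_eq_single d0]
    · rw [if_pos ⟨hk0, hc0⟩]
    · intro d hd hne
      rw [if_neg]
      rintro ⟨hk, hc⟩
      exact hne (huniq d hd d0 hd0 hk hk0 hc hc0)
    · intro h; exact absurd hd0 h
  · rw [Finset.sum_eq_zero]
    · positivity
    · intro d hd
      rw [if_neg]
      intro h
      exact hex ⟨d, hd, h⟩

end Vale.Agent.P006.V1
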