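import Vale.Agent.P006.V1.NC

/-!
P006, block V1: the non-cube part is bounded by `DISP.NCf`.
-/

namespace Vale.Agent.P006.V1

open MeasureTheory
open scoped BigOperators Classical
open Vale.Agent.P006
open Vale.Agent.P006.DISP (NonCube csumI ncTerm NCf Adm)

/-- the quadratic form attached to `κ` -/
noncomputable def Rk (V : ℝ → ℂ) (B : ℝ) (W : O) (α : O → ℂ) (A : ℝ) (κ : O) : ℂ :=
  ∑ a1 ∈ supp α A, ∑ a2 ∈ supp α A, (α a1 * (starRingEnd ℂ) (α a2)) *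
    ((pre B W ((N a1 : ℝ) * N a2) : ℂ) * (cc W (gd a1 a2) κ *
      ff V (Tn B W ((N a1 : ℝ) * N a2)) (a1 / gd a1 a2) (a2 / gd a1 a2) κ))

/-- the non-cube part of the dispersion sum -/
noncomputable def NCtot (V : ℝ → ℂ) (B : ℝ) (W : O) (α : O → ℂ) (A : ℝ) : ℂ :=
  ∑ a1 ∈ supp α A, ∑ a2 ∈ supp α A, (α a1 * (starRingEnd ℂ) (α a2)) * ncPair V B W a1 a2

theorem N_supp_pos {α : O → ℂ} {A : ℝ} {a : O} (ha : a ∈ supp α A) : (0 : ℝ) < N a := by
  rw [supp, Finset.mem_filter, mem_SPB] at ha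
  exact_mod_cast N_pos ha.1.1.1.ne_zero

theorem NCtot_eq {V : ℝ → ℂ} (hV : PO.Wt V) {W : O} (hW : Primary W) {A B : ℝ} (hB : 0 < B)
    {α : O → ℂ} (hα : Adm W A α) :
    (Summable fun κ : O => if ∃ ν : O, κ = ν ^ 3 then 0 else Rk V B W α A κ) ∧
    NCtot V B W α A = ∑' κ : O, if ∃ ν : O, κ = ν ^ 3 then 0 else Rk V B W α A κ := by
  have hP := pairData_supp hα
  have pW : (0 : ℝ) < N W := by exact_mod_cast N_pos hW.ne_zero
  have hs : ∀ a1 ∈ supp α A, ∀ a2 ∈ supp α A, Summable fun κ : O =>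
      (α a1 * (starRingEnd ℂ) (α a2)) * ((pre B W ((N a1 : ℝ) * N a2) : ℂ) *
        if ∃ ν : O, κ = ν ^ 3 then 0 else cc W (gd a1 a2) κ *
      ff V (Tn B W ((N a1 : ℝ) * N a2)) (a1 / gd a1 a2) (a2 / gd a1 a2) κ) := by
    intro a1 h1 a2 h2
    have P := hP a1 h1 a2 h2
    have p1 := N_supp_pos h1
    have p2 := N_supp_pos h2
    have hT : 0 < Tn B W ((N a1 : ℝ) * N a2) := by rw [Tn]; positivity
    exact ((summable_ite_not (ccff_summable hV hT hW.ne_zero P.pd.ne_zero _ _) _).mul_left _).mul_left _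
  have e1 : (fun κ : O => if ∃ ν : O, κ = ν ^ 3 then 0 else Rk V B W α A κ) =
      fun κ : O => ∑ a1 ∈ supp α A, ∑ a2 ∈ supp α A,
      (α a1 * (starRingEnd ℂ) (α a2)) * ((pre B W ((N a1 : ℝ) * N a2) : ℂ) *
        if ∃ ν : O, κ = ν ^ 3 then 0 else cc W (gd a1 a2) κ *
      ff V (Tn B W ((N a1 : ℝ) * N a2)) (a1 / gd a1 a2) (a2 / gd a1 a2) κ) := by
    funext κ
    split_ifs with h
    · symm
      refine Finset.sum_eq_zero fun a1 _ => Finset.sum_eq_zero fun a2 _ => ?_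
      rw [mul_zero, mul_zero]
    · rfl
  rw [e1]
  constructor
  · exact summable_sum fun a1 h1 => summable_sum fun a2 h2 => hs a1 h1 a2 h2
  · rw [Summable.tsum_finsetSum fun a1 h1 => summable_sum fun a2 h2 => hs a1 h1 a2 h2, NCtot]
    refine Finset.sum_congr rfl fun a1 h1 => ?_
    rw [Summable.tsum_finsetSum fun a2 h2 => hs a1 h1 a2 h2]
    refine Finset.sum_congr rfl fun a2 h2 => ?_
    rw [tsum_mul_left, tsum_mul_left, ncPair]

/-- the quadratic form attached to `(j, κ)` -/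
noncomputable def Qj (V : ℝ → ℂ) (α : O → ℂ) (A Y : ℝ) (j κ : O) : ℂ :=
  ∑ a1 ∈ (supp α A).filter (fun a => j ∣ a), ∑ a2 ∈ (supp α A).filter (fun a => j ∣ a),
    (α a1 * ch (a1 / j) κ) * (starRingEnd ℂ) (α a2 * ch (a2 / j) κ) *
      (((Real.sqrt ((N a1 : ℝ) / A * ((N a2 : ℝ) / A)))⁻¹ : ℝ) : ℂ) *
      PO.Vo V (Y / ((N a1 : ℝ) / A * ((N a2 : ℝ) / A)))

/-- rewriting of the quadratic form by Moebius inversion -/
theorem Rk_eq (V : ℝ → ℂ) {W : O} {A B : ℝ} (hA : 0 < A)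
    {α : O → ℂ} (hα : Adm W A α) (κ : O) :
    Rk V B W α A κ = ((2 * B / (9 * Real.sqrt 3 * N W) / A : ℝ) : ℂ) *
      ∑ j ∈ SPB (2 * A), Cj W j κ *
        Qj V α A ((N κ : ℝ) * B / A ^ 2 / (27 * (N W : ℝ) ^ 3)) j κ := by
  have hP := pairData_supp hα
  set Φ : O → O → ℂ := fun a1 a2 => (α a1 * (starRingEnd ℂ) (α a2)) *
    ((pre B W ((N a1 : ℝ) * N a2) : ℂ) * PO.Vo V (Tn B W ((N a1 : ℝ) * N a2) * N κ)) with hΦ
  have e1 : ∀ a1 ∈ supp α A, ∀ a2 ∈ supp α A, (α a1 * (starRingEnd ℂ) (α a2)) *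
      ((pre B W ((N a1 : ℝ) * N a2) : ℂ) * (cc W (gd a1 a2) κ *
      ff V (Tn B W ((N a1 : ℝ) * N a2)) (a1 / gd a1 a2) (a2 / gd a1 a2) κ)) =
      ∑ j ∈ HB.D (gd a1 a2), Φ a1 a2 *
        (Cj W j κ * (ch (a1 / j) κ * (starRingEnd ℂ) (ch (a2 / j) κ))) := by
    intro a1 h1 a2 h2
    rw [← Finset.mul_sum, ← cc_pair (hP a1 h1 a2 h2) κ, hΦ, ff]
    ring
  rw [Rk, Finset.sum_congr rfl fun a1 h1 => Finset.sum_congr rfl fun a2 h2 => e1 a1 h1 a2 h2]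
  rw [sum_pairs_swap (supp α A) (SPB (2 * A)) hP]
  · rw [Finset.mul_sum]
    refine Finset.sum_congr rfl fun j _ => ?_
    rw [Qj, Finset.mul_sum, Finset.mul_sum]
    refine Finset.sum_congr rfl fun a1 h1 => ?_
    rw [Finset.mul_sum, Finset.mul_sum]
    refine Finset.sum_congr rfl fun a2 h2 => ?_
    have p1 := N_supp_pos (Finset.mem_filter.1 h1).1
    have p2 := N_supp_pos (Finset.mem_filter.1 h2).1
    have f1 : Tn B W ((N a1 : ℝ) * N a2) * N κ = (N κ : ℝ) * B / A ^ 2 / (27 * (N W : ℝ) ^ 3) /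
        ((N a1 : ℝ) / A * ((N a2 : ℝ) / A)) := by
      rw [Tn]
      by_cases hW : (N W : ℝ) = 0
      · rw [hW]; simp
      · field_simp
    have f2 : pre B W ((N a1 : ℝ) * N a2) = (2 * B / (9 * Real.sqrt 3 * N W) / A) *
        (Real.sqrt ((N a1 : ℝ) / A * ((N a2 : ℝ) / A)))⁻¹ := by
      have g1 : Real.sqrt ((N a1 : ℝ) / A * ((N a2 : ℝ) / A)) =
          Real.sqrt ((N a1 : ℝ) * N a2) / A := by
        have : (N a1 : ℝ) / A * ((N a2 : ℝ) / A) = ((N a1 : ℝ) * N a2) / A ^ 2 := by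
          field_simp
        rw [this, Real.sqrt_div (by positivity), Real.sqrt_sq hA.le]
      rw [g1, pre]
      have g2 : Real.sqrt ((N a1 : ℝ) * N a2) ≠ 0 := (Real.sqrt_pos.2 (by positivity)).ne'
      field_simp
    simp only [hΦ]
    rw [f1, f2, map_mul]
    push_cast
    ring
  · intro j hj
    exact (mem_SPB.1 hj).1.1
  · intro a ha j hj hja
    rw [supp, Finset.mem_filter, mem_SPB] at ha
    rw [mem_SPB]
    refine ⟨⟨hj, ?_⟩, ha.1.2.squarefree_of_dvd hja⟩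
    have h1 : N j ≤ N a := Nat.le_of_dvd (N_pos ha.1.1.1.ne_zero) (N_dvd_N hja)
    have h2 : (N j : ℝ) ≤ N a := by exact_mod_cast h1
    exact h2.trans ha.1.1.2

theorem const_bound {w σ : ℝ} (hw : 1 ≤ w) (hσ : σ ≤ 2) :
    2 / (9 * Real.sqrt 3) * (27 * w ^ 3) ^ σ ≤ 100 * w ^ 6 := by
  have h1 : (1 : ℝ) ≤ 27 * w ^ 3 := by
    have : 1 ≤ w ^ 3 := one_le_pow₀ hw
    linarith
  have h2 : (27 * w ^ 3) ^ σ ≤ 729 * w ^ 6 := by
    calc (27 * w ^ 3) ^ σ ≤ (27 * w ^ 3) ^ (2 : ℝ) := Real.rpow_le_rpow_of_exponent_le h1 hσ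
      _ = (27 * w ^ 3) ^ 2 := by rw [← Real.rpow_natCast]; norm_num
      _ = 729 * w ^ 6 := by ring
  have h3 : (81 / 50 : ℝ) ≤ Real.sqrt 3 := by
    rw [show (81 / 50 : ℝ) = Real.sqrt ((81 / 50) ^ 2) by rw [Real.sqrt_sq (by norm_num)]]
    exact Real.sqrt_le_sqrt (by norm_num)
  have h4 : 2 / (9 * Real.sqrt 3) ≤ 100 / 729 := by
    rw [div_le_div_iff₀ (by positivity) (by norm_num)]
    linarith
  calc 2 / (9 * Real.sqrt 3) * (27 * w ^ 3) ^ σ ≤ 100 / 729 * (729 * w ^ 6) := by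
        have : (0 : ℝ) ≤ 2 / (9 * Real.sqrt 3) := by positivity
        gcongr
    _ = 100 * w ^ 6 := by ring

theorem Qj_le {V : ℝ → ℂ} {σ : ℝ} {H : ℝ → ℂ} {C : ℝ} (hH : SepK V σ H C)
    {W : O} {A : ℝ} (hA : 0 < A) {α : O → ℂ} (hα : Adm W A α)
    {Y : ℝ} (hY : 0 < Y) {j κ : O} (hj : Primary j) :
    ‖Qj V α A Y j κ‖ ≤ C * Y ^ (-σ) * csumI α A (σ - 1 / 2) j κ := by
  have h1 := sep_bound hH ((supp α A).filter (fun a => j ∣ a)) (fun a => α a * ch (a / j) κ)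
    (fun a => (N a : ℝ) / A)
    (fun a ha => div_pos (N_supp_pos (Finset.mem_filter.1 ha).1) hA) hY
  rw [csumI_eq hα (σ - 1 / 2) hj κ] at h1
  exact h1

theorem sep_const {w A B n : ℝ} {σ C g I : ℝ} (hw : 0 < w) (hA : 0 < A) (hB : 0 < B)
    (hn : 0 < n) :
    2 * B / (9 * Real.sqrt 3 * w) / A * ((w * g) *
        (C * (n * B / A ^ 2 / (27 * w ^ 3)) ^ (-σ) * I)) =
      (2 / (9 * Real.sqrt 3) * (27 * w ^ 3) ^ σ) * C *
        ((B / A) * (g * ((n * B / A ^ 2) ^ (-σ) * I))) := by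
  have s3 : (0 : ℝ) < Real.sqrt 3 := Real.sqrt_pos.2 (by norm_num)
  have hYσ : (n * B / A ^ 2 / (27 * w ^ 3)) ^ (-σ) =
      (n * B / A ^ 2) ^ (-σ) * (27 * w ^ 3) ^ σ := by
    rw [Real.div_rpow (by positivity) (by positivity), Real.rpow_neg (by positivity) σ,
      Real.rpow_neg (by positivity) σ, div_inv_eq_mul]
  rw [hYσ]
  generalize (n * B / A ^ 2) ^ (-σ) = p
  generalize (27 * w ^ 3) ^ σ = q
  field_simp

/-- bound for fixed `κ` and any `σ ≤ 2` -/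
theorem Rk_le {V : ℝ → ℂ} {σ : ℝ} (hσ : σ ≤ 2) {H : ℝ → ℂ} {C : ℝ} (hH : SepK V σ H C)
    {W : O} (hW : Primary W) {A B : ℝ} (hA : 0 < A) (hB : 0 < B) {α : O → ℂ} (hα : Adm W A α)
    {κ : O} (hκ : κ ≠ 0) :
    ‖Rk V B W α A κ‖ ≤ 100 * (N W : ℝ) ^ 6 * C * ((B / A) * ∑ j ∈ SPB (2 * A),
      ((N (EuclideanDomain.gcd j κ) : ℝ) *
        (((N κ : ℝ) * B / A ^ 2) ^ (-σ) * csumI α A (σ - 1 / 2) j κ))) := by
  have hC : 0 ≤ C := by
    have := (norm_nonneg _).trans (hH.bound 0)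
    simpa using this
  have pW : (0 : ℝ) < N W := by exact_mod_cast N_pos hW.ne_zero
  have pκ : (0 : ℝ) < N κ := by exact_mod_cast N_pos hκ
  have s3 : (0 : ℝ) < Real.sqrt 3 := Real.sqrt_pos.2 (by norm_num)
  set Y : ℝ := (N κ : ℝ) * B / A ^ 2 / (27 * (N W : ℝ) ^ 3) with hY
  have hYp : 0 < Y := by positivity
  have h2 : ‖∑ j ∈ SPB (2 * A), Cj W j κ * Qj V α A Y j κ‖ ≤
      ∑ j ∈ SPB (2 * A), (N W * N (EuclideanDomain.gcd j κ)) *
        (C * Y ^ (-σ) * csumI α A (σ - 1 / 2) j κ) := by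
    refine (norm_sum_le _ _).trans (Finset.sum_le_sum fun j hj => ?_)
    have hjp : Primary j := (mem_SPB.1 hj).1.1
    rw [norm_mul]
    exact mul_le_mul (norm_Cj_le hW.ne_zero hjp) (Qj_le hH hA hα hYp hjp) (norm_nonneg _)
      (by positivity)
  rw [Rk_eq V hA hα κ, norm_mul, Complex.norm_real, Real.norm_of_nonneg (by positivity)]
  have h4 : 0 ≤ ∑ j ∈ SPB (2 * A), ((N (EuclideanDomain.gcd j κ) : ℝ) *
      (((N κ : ℝ) * B / A ^ 2) ^ (-σ) * csumI α A (σ - 1 / 2) j κ)) :=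
    Finset.sum_nonneg fun j _ => by
      have := csumI_nonneg α A (σ - 1 / 2) j κ
      positivity
  have h3 := const_bound (w := N W) (σ := σ) (one_le_N hW.ne_zero) hσ
  calc 2 * B / (9 * Real.sqrt 3 * N W) / A * ‖∑ j ∈ SPB (2 * A), Cj W j κ * Qj V α A Y j κ‖
      ≤ 2 * B / (9 * Real.sqrt 3 * N W) / A * ∑ j ∈ SPB (2 * A),
        (N W * N (EuclideanDomain.gcd j κ)) * (C * Y ^ (-σ) * csumI α A (σ - 1 / 2) j κ) :=
        mul_le_mul_of_nonneg_left h2 (by positivity)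
    _ = (2 / (9 * Real.sqrt 3) * (27 * (N W : ℝ) ^ 3) ^ σ) * C * ((B / A) * ∑ j ∈ SPB (2 * A),
        ((N (EuclideanDomain.gcd j κ) : ℝ) *
        (((N κ : ℝ) * B / A ^ 2) ^ (-σ) * csumI α A (σ - 1 / 2) j κ))) := by
        rw [Finset.mul_sum, Finset.mul_sum, Finset.mul_sum]
        refine Finset.sum_congr rfl fun j _ => ?_
        exact sep_const pW hA hB pκ
    _ ≤ _ := mul_le_mul_of_nonneg_right (mul_le_mul_of_nonneg_right h3 hC)
        (mul_nonneg (div_nonneg hB.le hA.le) h4)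

/-- **The non-cube part.** -/
theorem nc_bound {V : ℝ → ℂ} (hV : PO.Wt V) {H1 H2 : ℝ → ℂ} {C : ℝ}
    (hH1 : SepK V (1 / 6) H1 C) (hH2 : SepK V 2 H2 C)
    {W : O} (hW : Primary W) {A B : ℝ} (hA : 0 < A) (hB : 0 < B) {α : O → ℂ} (hα : Adm W A α) :
    ‖NCtot V B W α A‖ ≤ 100 * (N W : ℝ) ^ 6 * C * NCf α A B := by
  obtain ⟨hs, he⟩ := NCtot_eq hV hW hB hα
  rw [he]
  have hsumm : Summable fun κ : O => 100 * (N W : ℝ) ^ 6 * C * ((B / A) *
      ∑ j ∈ SPB (2 * A), ncTerm α A B j κ) := by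
    refine (Summable.mul_left _ ?_).mul_left _
    exact summable_sum fun j hj => ncTerm_summable hA hB α (mem_SPB.1 hj).1.1.ne_zero
  have hpt : ∀ κ : O, ‖if ∃ ν : O, κ = ν ^ 3 then 0 else Rk V B W α A κ‖ ≤
      100 * (N W : ℝ) ^ 6 * C * ((B / A) * ∑ j ∈ SPB (2 * A), ncTerm α A B j κ) := by
    intro κ
    have hC : 0 ≤ C := by
      have := (norm_nonneg _).trans (hH1.bound 0)
      simpa using this
    split_ifs with h
    · rw [norm_zero]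
      have : 0 ≤ ∑ j ∈ SPB (2 * A), ncTerm α A B j κ :=
        Finset.sum_nonneg fun j _ => ncTerm_nonneg α hB.le j κ
      positivity
    · have hκ : κ ≠ 0 := by
        rintro rfl
        exact h ⟨0, by ring⟩
      have hnc : NonCube κ := nonCube_iff.2 h
      by_cases h4 : (N κ : ℝ) * B ≤ A ^ 2
      · refine (Rk_le (by norm_num) hH1 hW hA hB hα hκ).trans (le_of_eq ?_)
        congr 2
        refine Finset.sum_congr rfl fun j _ => ?_
        rw [ncTerm, if_pos hnc, if_pos h4]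
        norm_num
      · refine (Rk_le (le_refl 2) hH2 hW hA hB hα hκ).trans (le_of_eq ?_)
        congr 2
        refine Finset.sum_congr rfl fun j _ => ?_
        rw [ncTerm, if_pos hnc, if_neg h4]
        norm_num
  refine (tsum_of_norm_bounded hsumm.hasSum hpt).trans (le_of_eq ?_)
  rw [tsum_mul_left, tsum_mul_left, Summable.tsum_finsetSum fun j hj =>
    ncTerm_summable hA hB α (mem_SPB.1 hj).1.1.ne_zero, NCf]

end Vale.Agent.P006.V1
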