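import Vale.Agent.P006.V1.NCAlg
import Vale.Agent.P006.V1.Sep

/-!
P006, block V1: the kernel bound for fixed `(j, κ)`.
-/

namespace Vale.Agent.P006.V1

open MeasureTheory
open scoped BigOperators Classical
open Vale.Agent.P006

/-- the twisted sum over a finite index set: `∑ c_a u_a^{τ+it}` -/
noncomputable def Zt {ι : Type*} (S : Finset ι) (c : ι → ℂ) (u : ι → ℝ) (τ t : ℝ) : ℂ :=
  ∑ a ∈ S, c a * ((u a : ℂ) ^ ((τ : ℂ) + t * Complex.I))

theorem continuous_Zt {ι : Type*} (S : Finset ι) (c : ι → ℂ) (u : ι → ℝ) (hu : ∀ a ∈ S, 0 < u a)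
    (τ : ℝ) : Continuous (Zt S c u τ) := by
  refine continuous_finsetSum S fun a ha => continuous_const.mul ?_
  have h : (u a : ℂ) ≠ 0 := by exact_mod_cast (hu a ha).ne'
  exact Continuous.const_cpow (by fun_prop) (Or.inl h)

theorem norm_Zt_le {ι : Type*} (S : Finset ι) (c : ι → ℂ) (u : ι → ℝ) (hu : ∀ a ∈ S, 0 < u a)
    (τ t : ℝ) : ‖Zt S c u τ t‖ ≤ ∑ a ∈ S, ‖c a‖ * u a ^ τ := by
  refine (norm_sum_le _ _).trans (le_of_eq (Finset.sum_congr rfl fun a ha => ?_))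
  rw [norm_mul, Complex.norm_cpow_eq_rpow_re_of_pos (hu a ha)]
  simp

theorem integrable_Zt {ι : Type*} (S : Finset ι) (c : ι → ℂ) (u : ι → ℝ)
    (hu : ∀ a ∈ S, 0 < u a) (τ : ℝ) :
    Integrable fun t : ℝ => (1 + t ^ 2)⁻¹ * ‖Zt S c u τ t‖ ^ 2 := by
  have hc := continuous_Zt S c u hu τ
  refine Integrable.mono' (integrable_inv_one_add_sq.mul_const ((∑ a ∈ S, ‖c a‖ * u a ^ τ) ^ 2))
    ?_ (Filter.Eventually.of_forall fun t => ?_)
  · have h1 : Continuous fun t : ℝ => (1 + t ^ 2)⁻¹ :=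
      Continuous.inv₀ (by fun_prop) fun t => by positivity
    exact (h1.mul (hc.norm.pow 2)).aestronglyMeasurable
  · rw [Real.norm_of_nonneg (by positivity)]
    have := norm_Zt_le S c u hu τ t
    gcongr

/-- **Separation of variables for a quadratic form.** -/
theorem sep_bound {V : ℝ → ℂ} {σ : ℝ} {H : ℝ → ℂ} {C : ℝ} (hH : SepK V σ H C)
    {ι : Type*} (S : Finset ι) (c : ι → ℂ) (u : ι → ℝ) (hu : ∀ a ∈ S, 0 < u a) {Y : ℝ}
    (hY : 0 < Y) :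
    ‖∑ a1 ∈ S, ∑ a2 ∈ S, c a1 * (starRingEnd ℂ) (c a2) *
        (((Real.sqrt (u a1 * u a2))⁻¹ : ℝ) : ℂ) * PO.Vo V (Y / (u a1 * u a2))‖ ≤
      C * Y ^ (-σ) * ∫ t : ℝ, (1 + t ^ 2)⁻¹ * ‖Zt S c u (σ - 1 / 2) t‖ ^ 2 := by
  set τ := σ - 1 / 2 with hτ
  have hC : 0 ≤ C := by
    have := (norm_nonneg _).trans (hH.bound 0)
    simpa using this
  -- pointwise identity
  have h1 : ∀ a1 ∈ S, ∀ a2 ∈ S, c a1 * (starRingEnd ℂ) (c a2) *
      (((Real.sqrt (u a1 * u a2))⁻¹ : ℝ) : ℂ) * PO.Vo V (Y / (u a1 * u a2)) =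
      ∫ t : ℝ, H t * (Y : ℂ) ^ (-((σ : ℂ) + t * Complex.I)) *
        ((c a1 * (u a1 : ℂ) ^ ((τ : ℂ) + t * Complex.I)) *
          ((starRingEnd ℂ) (c a2) * (u a2 : ℂ) ^ ((τ : ℂ) + t * Complex.I))) := by
    intro a1 ha1 a2 ha2
    have p1 := hu a1 ha1
    have p2 := hu a2 ha2
    rw [hH.sep _ (by positivity), ← integral_const_mul]
    refine integral_congr_ae (Filter.Eventually.of_forall fun t => ?_)
    simp only
    have g1 : ((Y / (u a1 * u a2) : ℝ) : ℂ) ^ (-((σ : ℂ) + t * Complex.I)) =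
        (Y : ℂ) ^ (-((σ : ℂ) + t * Complex.I)) *
          ((u a1 : ℂ) ^ ((σ : ℂ) + t * Complex.I) * (u a2 : ℂ) ^ ((σ : ℂ) + t * Complex.I)) := by
      rw [Complex.ofReal_div, div_eq_mul_inv, ← Complex.ofReal_inv,
        Complex.mul_cpow_ofReal_nonneg hY.le (by positivity)]
      congr 1
      rw [Complex.ofReal_inv, Complex.inv_cpow_eq_ite, if_neg, Complex.cpow_neg, inv_inv,
        Complex.ofReal_mul, Complex.mul_cpow_ofReal_nonneg p1.le p2.le]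
      rw [Complex.arg_ofReal_of_nonneg (by positivity)]
      exact Real.pi_pos.ne
    have g2 : ∀ x : ℝ, 0 < x → (x : ℂ) ^ ((σ : ℂ) + t * Complex.I) =
        ((Real.sqrt x : ℝ) : ℂ) * (x : ℂ) ^ ((τ : ℂ) + t * Complex.I) := by
      intro x hx
      have hx0 : (x : ℂ) ≠ 0 := by exact_mod_cast hx.ne'
      rw [Real.sqrt_eq_rpow, Complex.ofReal_cpow hx.le, ← Complex.cpow_add _ _ hx0, hτ]
      congr 1
      push_cast; ring
    rw [g1, g2 _ p1, g2 _ p2, Real.sqrt_mul p1.le]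
    have q1 : ((Real.sqrt (u a1) : ℝ) : ℂ) ≠ 0 := by
      exact_mod_cast (Real.sqrt_pos.2 p1).ne'
    have q2 : ((Real.sqrt (u a2) : ℝ) : ℂ) ≠ 0 := by
      exact_mod_cast (Real.sqrt_pos.2 p2).ne'
    push_cast
    field_simp
  have hZc := continuous_Zt S c u hu τ
  -- conj Z(-t)
  have hconj : ∀ t : ℝ, ∑ a ∈ S, (starRingEnd ℂ) (c a) * (u a : ℂ) ^ ((τ : ℂ) + t * Complex.I) =
      (starRingEnd ℂ) (Zt S c u τ (-t)) := by
    intro t
    rw [Zt, map_sum]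
    refine Finset.sum_congr rfl fun a ha => ?_
    have p := hu a ha
    rw [map_mul]
    congr 1
    have hx0 : (u a : ℂ) ≠ 0 := by exact_mod_cast p.ne'
    have harg : (u a : ℂ).arg ≠ Real.pi := by
      rw [Complex.arg_ofReal_of_nonneg p.le]; exact Real.pi_pos.ne
    have h := Complex.cpow_conj (u a : ℂ) ((τ : ℂ) + ((-t : ℝ) : ℂ) * Complex.I) harg
    rw [Complex.conj_ofReal] at h
    rw [← h]
    congr 1
    rw [map_add, map_mul, Complex.conj_ofReal, Complex.conj_ofReal, Complex.conj_I]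
    push_cast; ring
  -- integrability
  have hint : ∀ a1 ∈ S, ∀ a2 ∈ S, Integrable fun t : ℝ =>
      H t * (Y : ℂ) ^ (-((σ : ℂ) + t * Complex.I)) *
        ((c a1 * (u a1 : ℂ) ^ ((τ : ℂ) + t * Complex.I)) *
          ((starRingEnd ℂ) (c a2) * (u a2 : ℂ) ^ ((τ : ℂ) + t * Complex.I))) := by
    intro a1 ha1 a2 ha2
    have p1 := hu a1 ha1
    have p2 := hu a2 ha2
    refine Integrable.mono' (integrable_inv_one_add_sq.mul_const
      (C * Y ^ (-σ) * (‖c a1‖ * u a1 ^ τ * (‖c a2‖ * u a2 ^ τ)))) ?_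
      (Filter.Eventually.of_forall fun t => ?_)
    · have c0 : ∀ (x : ℝ) (g : ℝ → ℂ), 0 < x → Continuous g → Continuous fun t => (x : ℂ) ^ g t :=
        fun x g hx hg => hg.const_cpow (Or.inl (by exact_mod_cast hx.ne'))
      exact ((hH.cont.mul (c0 Y _ hY (by fun_prop))).mul
        ((continuous_const.mul (c0 _ _ p1 (by fun_prop))).mul
          (continuous_const.mul (c0 _ _ p2 (by fun_prop))))).aestronglyMeasurable
    · simp only [norm_mul, RCLike.norm_conj]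
      rw [Complex.norm_cpow_eq_rpow_re_of_pos hY, Complex.norm_cpow_eq_rpow_re_of_pos p1,
        Complex.norm_cpow_eq_rpow_re_of_pos p2]
      simp only [Complex.neg_re, Complex.add_re, Complex.ofReal_re, Complex.mul_re,
        Complex.I_re, mul_zero, Complex.ofReal_im, Complex.I_im, mul_one, sub_zero, add_zero]
      have := hH.bound t
      rw [div_eq_mul_inv] at this
      calc ‖H t‖ * Y ^ (-σ) * (‖c a1‖ * u a1 ^ τ * (‖c a2‖ * u a2 ^ τ))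
          ≤ (C * (1 + t ^ 2)⁻¹) * Y ^ (-σ) * (‖c a1‖ * u a1 ^ τ * (‖c a2‖ * u a2 ^ τ)) := by
            gcongr
        _ = _ := by ring
  have h2 : ∑ a1 ∈ S, ∑ a2 ∈ S, c a1 * (starRingEnd ℂ) (c a2) *
      (((Real.sqrt (u a1 * u a2))⁻¹ : ℝ) : ℂ) * PO.Vo V (Y / (u a1 * u a2)) =
      ∫ t : ℝ, H t * (Y : ℂ) ^ (-((σ : ℂ) + t * Complex.I)) *
        (Zt S c u τ t * (starRingEnd ℂ) (Zt S c u τ (-t))) := by
    rw [Finset.sum_congr rfl fun a1 ha1 => Finset.sum_congr rfl fun a2 ha2 => h1 a1 ha1 a2 ha2]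
    rw [Finset.sum_congr rfl fun a1 ha1 => (integral_finsetSum S fun a2 ha2 =>
      hint a1 ha1 a2 ha2).symm]
    rw [← integral_finsetSum S fun a1 ha1 => integrable_finsetSum S fun a2 ha2 =>
      hint a1 ha1 a2 ha2]
    refine integral_congr_ae (Filter.Eventually.of_forall fun t => ?_)
    simp only
    rw [← hconj t, Zt, Finset.sum_mul_sum, Finset.mul_sum]
    refine Finset.sum_congr rfl fun a1 _ => ?_
    rw [Finset.mul_sum]
  rw [h2]
  have hI := integrable_Zt S c u hu τ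
  have hI' : Integrable fun t : ℝ => (1 + t ^ 2)⁻¹ * ‖Zt S c u τ (-t)‖ ^ 2 := by
    have := hI.comp_neg
    simpa using this
  have heq : ∫ t : ℝ, (1 + t ^ 2)⁻¹ * ‖Zt S c u τ (-t)‖ ^ 2 =
      ∫ t : ℝ, (1 + t ^ 2)⁻¹ * ‖Zt S c u τ t‖ ^ 2 := by
    have := integral_neg_eq_self (fun t : ℝ => (1 + t ^ 2)⁻¹ * ‖Zt S c u τ t‖ ^ 2) volume
    simpa using this
  have hbd : ∀ t : ℝ, ‖H t * (Y : ℂ) ^ (-((σ : ℂ) + t * Complex.I)) *
      (Zt S c u τ t * (starRingEnd ℂ) (Zt S c u τ (-t)))‖ ≤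
      C * Y ^ (-σ) * (((1 + t ^ 2)⁻¹ * ‖Zt S c u τ t‖ ^ 2 +
        (1 + t ^ 2)⁻¹ * ‖Zt S c u τ (-t)‖ ^ 2) / 2) := by
    intro t
    rw [norm_mul, norm_mul, norm_mul, RCLike.norm_conj, Complex.norm_cpow_eq_rpow_re_of_pos hY]
    simp only [Complex.neg_re, Complex.add_re, Complex.ofReal_re, Complex.mul_re,
        Complex.I_re, mul_zero, Complex.ofReal_im, Complex.I_im, mul_one, sub_zero, add_zero]
    have h3 := hH.bound t
    rw [div_eq_mul_inv] at h3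
    have h4 : ‖Zt S c u τ t‖ * ‖Zt S c u τ (-t)‖ ≤
        (‖Zt S c u τ t‖ ^ 2 + ‖Zt S c u τ (-t)‖ ^ 2) / 2 := by
      nlinarith [sq_nonneg (‖Zt S c u τ t‖ - ‖Zt S c u τ (-t)‖)]
    calc ‖H t‖ * Y ^ (-σ) * (‖Zt S c u τ t‖ * ‖Zt S c u τ (-t)‖)
        ≤ (C * (1 + t ^ 2)⁻¹) * Y ^ (-σ) *
          ((‖Zt S c u τ t‖ ^ 2 + ‖Zt S c u τ (-t)‖ ^ 2) / 2) := by gcongr
      _ = _ := by ring
  calc ‖∫ t : ℝ, H t * (Y : ℂ) ^ (-((σ : ℂ) + t * Complex.I)) *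
        (Zt S c u τ t * (starRingEnd ℂ) (Zt S c u τ (-t)))‖
      ≤ ∫ t : ℝ, C * Y ^ (-σ) * (((1 + t ^ 2)⁻¹ * ‖Zt S c u τ t‖ ^ 2 +
        (1 + t ^ 2)⁻¹ * ‖Zt S c u τ (-t)‖ ^ 2) / 2) :=
        norm_integral_le_of_norm_le (((hI.add hI').div_const 2).const_mul _)
          (Filter.Eventually.of_forall hbd)
    _ = C * Y ^ (-σ) * ∫ t : ℝ, (1 + t ^ 2)⁻¹ * ‖Zt S c u τ t‖ ^ 2 := by
        rw [integral_const_mul, integral_div, integral_add hI hI', heq]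
        ring

end Vale.Agent.P006.V1
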