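import Vale.Agent.P006.V1.Theta

/-!
P006, block V1: the product of the normalised Gauss sums with the complete sum.
-/

namespace Vale.Agent.P006.V1

open scoped BigOperators Classical
open Vale.Agent.P006

/-- the arithmetic input: cubic reciprocity and Gauss sums of squarefree primary modulus -/
structure CubicInput : Prop where
  recip : ∀ a b : O, Primary a → Primary b → sym a b = sym b a
  gs_eq : ∀ r k : O, Primary r → Squarefree r → gs r k = (starRingEnd ℂ) (ch r k) * gs r 1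
  norm_gs : ∀ r : O, Primary r → Squarefree r → ‖gs r 1‖ ^ 2 = N r

/-- the normalised Gauss sum -/
noncomputable def gn (a : O) : ℂ := gs a 1 / (Real.sqrt (N a) : ℝ)

theorem ch_neg (b x : O) : ch b (-x) = ch b x := by rw [ch, sym_neg_left]; rfl

theorem E_neg (m x : O) : E m (-x) = (starRingEnd ℂ) (E m x) := by
  rw [E, E, map_neg, neg_div, TrC_neg, e_neg]

theorem gsc_eq (r k : O) [NeZero r] : gsc r k = (starRingEnd ℂ) (gs r (-k)) := by
  rw [gs, ← rsum_conj, gsc]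
  refine rsum_congr fun x => ?_
  rw [map_mul, mul_neg, E_neg, Complex.conj_conj]

theorem CubicInput.gsc_eq' (h : CubicInput) {r : O} (hr : Primary r) (hs : Squarefree r) (k : O) :
    gsc r k = ch r k * (starRingEnd ℂ) (gs r 1) := by
  have : NeZero r := ⟨hr.ne_zero⟩
  rw [gsc_eq, h.gs_eq r (-k) hr hs, map_mul, Complex.conj_conj, ch_neg]

theorem CubicInput.ch_comm (h : CubicInput) {a b : O} (ha : Primary a) (hb : Primary b) :
    ch a b = ch b a := by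
  rw [ch, ch, h.recip b a hb ha]

/-- multiplicativity of Gauss sums for coprime moduli -/
theorem gs_mul {a b : O} (ha : a ≠ 0) (hb : b ≠ 0) (hab : IsCoprime a b) :
    gs (a * b) 1 = ch a b * ch b a * (gs a 1 * gs b 1) := by
  have na : NeZero a := ⟨ha⟩
  have nb : NeZero b := ⟨hb⟩
  have e1 : rsum a (fun x => ch a (b * x) * E a (x * 1)) = ch a b * gs a 1 := by
    rw [gs, ← rsum_const_mul]
    exact rsum_congr fun x => by rw [ch_mul]; ring
  have e2 : rsum b (fun x => ch b (a * x) * E b (x * 1)) = ch b a * gs b 1 := by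
    rw [gs, ← rsum_const_mul]
    exact rsum_congr fun x => by rw [ch_mul]; ring
  rw [gs, rsum_congr (h' := fun x => ch a x * ch b x * E (a * b) (x * 1))
    (fun x => by rw [ch_mul_left ha hb]), rsum_mul_E ha hb hab (ch_per a) (ch_per b), e1, e2]
  ring

theorem CubicInput.gs_mul (h : CubicInput) {a b : O} (ha : Primary a) (hb : Primary b)
    (hab : IsCoprime a b) : gs (a * b) 1 = (starRingEnd ℂ) (ch b a) * (gs a 1 * gs b 1) := by
  rw [V1.gs_mul ha.ne_zero hb.ne_zero hab, h.ch_comm ha hb, conj_ch]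
  ring

theorem ch_pow_three {b x : O} (h : IsCoprime x b) : ch b x ^ 3 = 1 := by
  rw [ch, ← map_pow, sym_cube h, map_one]

theorem ch_norm {b x : O} (h : IsCoprime x b) : ‖ch b x‖ = 1 := norm_sym h

theorem norm_ch_le (b x : O) : ‖ch b x‖ ≤ 1 := norm_sym_le x b

/-- **Cancellation of the Gauss sums.** -/
theorem CubicInput.phase (h : CubicInput) {W d r1 r2 : O} (hW : Primary W) (hd : Primary d)
    (h1 : Primary r1) (h2 : Primary r2) (sd : Squarefree d) (s1 : Squarefree r1)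
    (s2 : Squarefree r2)
    (hWd : IsCoprime W (d * (r1 * r2))) (hdr : IsCoprime d (r1 * r2)) (hr : IsCoprime r1 r2)
    (k : O) :
    gn (d * r1) * (starRingEnd ℂ) (gn (d * r2)) *
      (((starRingEnd ℂ) (ch r1 (W * d * r2)) * gsc r1 k) * (ch r2 (W * d * r1) * gs r2 k)) =
      (Real.sqrt (N (r1 * r2)) : ℝ) *
        (ch r1 (k * d * W ^ 2) * (starRingEnd ℂ) (ch r2 (k * d * W ^ 2))) := by
  have hdr1 : IsCoprime d r1 := IsCoprime.of_mul_right_left hdr
  have hdr2 : IsCoprime d r2 := IsCoprime.of_mul_right_right hdr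
  have hWr : IsCoprime W (r1 * r2) := IsCoprime.of_mul_right_right hWd
  have hWr1 : IsCoprime W r1 := IsCoprime.of_mul_right_left hWr
  have hWr2 : IsCoprime W r2 := IsCoprime.of_mul_right_right hWr
  have e1 : gn (d * r1) = (starRingEnd ℂ) (ch r1 d) * (gs d 1 * gs r1 1) /
      (Real.sqrt (N d * N r1 : ℝ) : ℝ) := by
    rw [gn, h.gs_mul hd h1 hdr1, N_mul]; push_cast; rfl
  have e2 : (starRingEnd ℂ) (gn (d * r2)) = ch r2 d * ((starRingEnd ℂ) (gs d 1) *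
      (starRingEnd ℂ) (gs r2 1)) / (Real.sqrt (N d * N r2 : ℝ) : ℝ) := by
    rw [gn, h.gs_mul hd h2 hdr2, map_div₀, map_mul, map_mul, Complex.conj_conj,
      Complex.conj_ofReal, N_mul]
    push_cast; rfl
  rw [e1, e2, h.gsc_eq' h1 s1, h.gs_eq r2 k h2 s2]
  have nd : (N d : ℝ) ≠ 0 := by exact_mod_cast (N_pos hd.ne_zero).ne'
  have n1 : (N r1 : ℝ) ≠ 0 := by exact_mod_cast (N_pos h1.ne_zero).ne'
  have n2 : (N r2 : ℝ) ≠ 0 := by exact_mod_cast (N_pos h2.ne_zero).ne'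
  have q1 : gs d 1 * (starRingEnd ℂ) (gs d 1) = (N d : ℂ) := by
    rw [Complex.mul_conj, Complex.normSq_eq_norm_sq, h.norm_gs d hd sd]; norm_num
  have q2 : gs r1 1 * (starRingEnd ℂ) (gs r1 1) = (N r1 : ℂ) := by
    rw [Complex.mul_conj, Complex.normSq_eq_norm_sq, h.norm_gs r1 h1 s1]; norm_num
  have q3 : gs r2 1 * (starRingEnd ℂ) (gs r2 1) = (N r2 : ℂ) := by
    rw [Complex.mul_conj, Complex.normSq_eq_norm_sq, h.norm_gs r2 h2 s2]; norm_num
  -- characters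
  have hx : ch r1 r2 = ch r2 r1 := h.ch_comm h1 h2
  have hx1 : ch r1 r2 ^ 2 * ch r2 r1 = 1 := by
    rw [← conj_ch, ← hx, ch_conj_mul, cop, if_pos hr.symm]
  have c1 : ch r1 d ^ 3 = 1 := ch_pow_three hdr1
  have c2 : ch r2 W ^ 3 = 1 := ch_pow_three hWr2
  have f1 : (starRingEnd ℂ) (ch r1 (W * d * r2)) = ch r1 W ^ 2 * ch r1 d ^ 2 * ch r1 r2 ^ 2 := by
    rw [conj_ch, ch_mul, ch_mul]; ring
  have f2 : ch r2 (W * d * r1) = ch r2 W * ch r2 d * ch r2 r1 := by rw [ch_mul, ch_mul]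
  have f3 : ch r1 (k * d * W ^ 2) = ch r1 k * ch r1 d * ch r1 W ^ 2 := by
    rw [ch_mul, ch_mul, pow_two W, ch_mul]; ring
  have f4 : (starRingEnd ℂ) (ch r2 (k * d * W ^ 2)) = ch r2 k ^ 2 * ch r2 d ^ 2 * ch r2 W ^ 4 := by
    rw [conj_ch, ch_mul, ch_mul, pow_two W, ch_mul]; ring
  rw [f1, f2, f3, f4, conj_ch, conj_ch]
  have hs : ((Real.sqrt (N d * N r1 : ℝ) : ℝ) : ℂ) * ((Real.sqrt (N d * N r2 : ℝ) : ℝ) : ℂ) =
      N d * ((Real.sqrt (N r1 * N r2 : ℝ) : ℝ) : ℂ) := by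
    rw [← Complex.ofReal_mul, ← Real.sqrt_mul (by positivity)]
    have : (N d * N r1 * (N d * N r2) : ℝ) = (N d : ℝ) ^ 2 * (N r1 * N r2) := by ring
    rw [this, Real.sqrt_mul (by positivity), Real.sqrt_sq (by positivity)]
    push_cast; ring
  have hs2 : ((Real.sqrt (N r1 * N r2 : ℝ) : ℝ) : ℂ) * ((Real.sqrt (N r1 * N r2 : ℝ) : ℝ) : ℂ) =
      N r1 * N r2 := by
    rw [← Complex.ofReal_mul, Real.mul_self_sqrt (by positivity)]; push_cast; ring
  have pd : (0 : ℝ) < N d := by exact_mod_cast N_pos hd.ne_zero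
  have p1 : (0 : ℝ) < N r1 := by exact_mod_cast N_pos h1.ne_zero
  have p2 : (0 : ℝ) < N r2 := by exact_mod_cast N_pos h2.ne_zero
  have hn1 : ((Real.sqrt (N d * N r1 : ℝ) : ℝ) : ℂ) ≠ 0 := by
    rw [Complex.ofReal_ne_zero]; exact (Real.sqrt_pos.2 (by positivity)).ne'
  have hn2 : ((Real.sqrt (N d * N r2 : ℝ) : ℝ) : ℂ) ≠ 0 := by
    rw [Complex.ofReal_ne_zero]; exact (Real.sqrt_pos.2 (by positivity)).ne'
  have hN : ((Real.sqrt (N (r1 * r2) : ℝ) : ℝ) : ℂ) = ((Real.sqrt (N r1 * N r2 : ℝ) : ℝ) : ℂ) := by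
    rw [N_mul]; push_cast; rfl
  rw [hN, div_mul_div_comm, div_mul_eq_mul_div, div_eq_iff (mul_ne_zero hn1 hn2), hs]
  generalize ((Real.sqrt (N r1 * N r2 : ℝ) : ℝ) : ℂ) = S at hs2 ⊢
  generalize ch r1 d = x1 at *
  generalize ch r2 d = x2 at *
  generalize ch r1 W = w1 at *
  generalize ch r2 W = w2 at *
  generalize ch r1 r2 = c12 at *
  generalize ch r2 r1 = c21 at *
  generalize ch r1 k = k1 at *
  generalize ch r2 k = k2 at *
  calc x1 ^ 2 * (gs d 1 * gs r1 1) * (x2 * ((starRingEnd ℂ) (gs d 1) * (starRingEnd ℂ) (gs r2 1))) *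
        (w1 ^ 2 * x1 ^ 2 * c12 ^ 2 * (k1 * (starRingEnd ℂ) (gs r1 1)) *
          (w2 * x2 * c21 * (k2 ^ 2 * gs r2 1))) =
        (x1 ^ 3 * x1) * x2 ^ 2 * w1 ^ 2 * w2 * (c12 ^ 2 * c21) * k1 * k2 ^ 2 *
        ((gs d 1 * (starRingEnd ℂ) (gs d 1)) * (gs r1 1 * (starRingEnd ℂ) (gs r1 1)) *
        (gs r2 1 * (starRingEnd ℂ) (gs r2 1))) := by ring
    _ = x1 * x2 ^ 2 * w1 ^ 2 * w2 * k1 * k2 ^ 2 * (N d * (N r1 * N r2)) := by
        rw [c1, hx1, q1, q2, q3]; ring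
    _ = S * (k1 * x1 * w1 ^ 2 * (k2 ^ 2 * x2 ^ 2 * w2 ^ 4)) * (N d * S) := by
        rw [← hs2]
        linear_combination (- x1 * x2 ^ 2 * w1 ^ 2 * w2 * k1 * k2 ^ 2 * (N d * (S * S))) * c2

end Vale.Agent.P006.V1
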